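import Mathlib
import Vale.Agent.Lib.P248.PL4

/-!
# Support functions and symmetrization in coordinate spaces
-/

open MeasureTheory Set Filter Topology
open scoped ENNReal

namespace Vale.Agent.Lib.P227G

variable {ι : Type*} [Fintype ι]

/-- The support function of a subset of coordinate space. -/
noncomputable def supp (M : Set (ι → ℝ)) (u : ι → ℝ) : ℝ :=
  sSup ((fun x => dotProduct x u) '' M)

/-- The width function: half the sum of the support numbers in two opposite directions. -/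
noncomputable def wid (M : Set (ι → ℝ)) (u : ι → ℝ) : ℝ := (supp M u + supp M (-u)) / 2

/-- Origin-symmetric convex bodies. -/
structure IsSymBody (M : Set (ι → ℝ)) : Prop where
  compact : IsCompact M
  convex : Convex ℝ M
  symm : ∀ x ∈ M, -x ∈ M
  interior : (interior M).Nonempty

lemma continuous_dot : Continuous fun p : (ι → ℝ) × (ι → ℝ) => dotProduct p.2 p.1 := by
  unfold dotProduct
  fun_prop

lemma continuous_dot_left (u : ι → ℝ) : Continuous fun x : ι → ℝ => dotProduct x u := by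
  unfold dotProduct
  fun_prop

lemma continuous_dot_right (x : ι → ℝ) : Continuous fun u : ι → ℝ => dotProduct x u := by
  unfold dotProduct
  fun_prop

variable {M : Set (ι → ℝ)}

lemma le_supp (hM : IsCompact M) {x : ι → ℝ} (hx : x ∈ M) (u : ι → ℝ) : dotProduct x u ≤ supp M u :=
  le_csSup (hM.image (continuous_dot_left u)).bddAbove ⟨x, hx, rfl⟩

lemma exists_supp (hM : IsCompact M) (hne : M.Nonempty) (u : ι → ℝ) :
    ∃ x ∈ M, dotProduct x u = supp M u := by
  have := (hM.image (continuous_dot_left u)).sSup_mem (hne.image _)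
  obtain ⟨x, hx, h⟩ := this
  exact ⟨x, hx, h⟩

lemma supp_empty (u : ι → ℝ) : supp (∅ : Set (ι → ℝ)) u = 0 := by
  simp [supp]

lemma continuous_supp (hM : IsCompact M) : Continuous (supp M) :=
  hM.continuous_sSup (f := fun (u : ι → ℝ) (x : ι → ℝ) => dotProduct x u) continuous_dot

lemma continuous_wid (hM : IsCompact M) : Continuous (wid M) := by
  have h := continuous_supp hM
  unfold wid
  exact (h.add (h.comp continuous_neg)).div_const 2

lemma dot_neg' (x u : ι → ℝ) : dotProduct x (-u) = - dotProduct x u := by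
  simp [dotProduct]

lemma neg_dot' (x u : ι → ℝ) : dotProduct (-x) u = - dotProduct x u := by
  simp [dotProduct]

lemma wid_nonneg (hM : IsCompact M) (u : ι → ℝ) : 0 ≤ wid M u := by
  rcases M.eq_empty_or_nonempty with rfl | ⟨x, hx⟩
  · simp [wid, supp_empty]
  · have h1 := le_supp hM hx u
    have h2 := le_supp hM hx (-u)
    rw [dot_neg'] at h2
    unfold wid
    linarith

/-- The elementary lower bound for the support number of a set containing a box. -/
lemma supp_lower [Nonempty ι] (hM : IsCompact M) {x₀ : ι → ℝ} {ε : ℝ} (hε : 0 ≤ ε)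
    (hb : Metric.closedBall x₀ ε ⊆ M) (u : ι → ℝ) :
    dotProduct x₀ u + ε * ‖u‖ ≤ supp M u := by
  classical
  obtain ⟨k, hk⟩ := Finite.exists_max fun k => |u k|
  have hnorm : ‖u‖ = |u k| := by
    apply le_antisymm
    · rw [pi_norm_le_iff_of_nonneg (abs_nonneg _)]
      intro i
      simpa using hk i
    · simpa using norm_le_pi_norm u k
  set σ : ℝ := if 0 ≤ u k then 1 else -1 with hσ
  have hσ1 : |σ| = 1 := by
    simp only [hσ]
    split_ifs <;> simp
  have hσu : σ * u k = |u k| := by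
    simp only [hσ]
    split_ifs with h
    · rw [abs_of_nonneg h, one_mul]
    · rw [abs_of_neg (not_le.1 h)]
      ring
  set x : ι → ℝ := x₀ + Pi.single k (ε * σ) with hx
  have hxmem : x ∈ Metric.closedBall x₀ ε := by
    rw [mem_closedBall_iff_norm]
    have : x - x₀ = Pi.single k (ε * σ) := by
      rw [hx]
      abel
    rw [this, Pi.norm_single, Real.norm_eq_abs, abs_mul, hσ1, abs_of_nonneg hε, mul_one]
  have h1 := le_supp hM (hb hxmem) u
  have h2 : dotProduct x u = dotProduct x₀ u + ε * ‖u‖ := by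
    rw [hx, add_dotProduct, single_dotProduct, hnorm, ← hσu]
    ring
  rwa [h2] at h1

/-- The elementary upper bound for the support number of a bounded set. -/
lemma supp_upper (hM : IsCompact M) {R : ℝ} (hR : 0 ≤ R) (hb : ∀ x ∈ M, ‖x‖ ≤ R) (u : ι → ℝ) :
    supp M u ≤ R * Fintype.card ι * ‖u‖ := by
  have hpos : 0 ≤ R * Fintype.card ι * ‖u‖ := by positivity
  refine Real.sSup_le ?_ hpos
  rintro _ ⟨x, hx, rfl⟩
  have : dotProduct x u ≤ ∑ _i : ι, R * ‖u‖ := by
    refine Finset.sum_le_sum fun i _ => ?_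
    have h1 : |x i| ≤ R := by simpa using (norm_le_pi_norm x i).trans (hb x hx)
    have h2 : |u i| ≤ ‖u‖ := by simpa using norm_le_pi_norm u i
    calc x i * u i ≤ |x i * u i| := le_abs_self _
      _ = |x i| * |u i| := abs_mul _ _
      _ ≤ R * ‖u‖ := mul_le_mul h1 h2 (abs_nonneg _) hR
  refine this.trans (le_of_eq ?_)
  simp only [Finset.sum_const, Finset.card_univ, nsmul_eq_mul]
  ring

/-- The difference body, scaled by one half. -/
def symz (M : Set (ι → ℝ)) : Set (ι → ℝ) :=
  (fun p : (ι → ℝ) × (ι → ℝ) => (1 / 2 : ℝ) • p.1 + (1 - 1 / 2 : ℝ) • (-p.2)) '' (M ×ˢ M)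

lemma symz_compact (hM : IsCompact M) : IsCompact (symz M) := by
  refine (hM.prod hM).image ?_
  fun_prop

lemma symz_convex (hM : Convex ℝ M) : Convex ℝ (symz M) := by
  rintro _ ⟨⟨x, x'⟩, ⟨hx, hx'⟩, rfl⟩ _ ⟨⟨y, y'⟩, ⟨hy, hy'⟩, rfl⟩ s t hs ht hst
  refine ⟨(s • x + t • y, s • x' + t • y'), ⟨hM hx hy hs ht hst, hM hx' hy' hs ht hst⟩, ?_⟩
  simp only [smul_add, smul_neg, neg_add_rev]
  ext i
  simp only [Pi.add_apply, Pi.smul_apply, Pi.neg_apply, smul_eq_mul]
  ring

lemma symz_symm {x : ι → ℝ} (hx : x ∈ symz M) : -x ∈ symz M := by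
  obtain ⟨⟨a, b⟩, ⟨ha, hb⟩, rfl⟩ := hx
  refine ⟨(b, a), ⟨hb, ha⟩, ?_⟩
  ext i
  simp only [Pi.add_apply, Pi.smul_apply, Pi.neg_apply, smul_eq_mul]
  ring

lemma symz_interior [Nonempty ι] (hM : (interior M).Nonempty) : (interior (symz M)).Nonempty := by
  obtain ⟨x₁, hx₁⟩ := hM
  obtain ⟨ε, hε, hb⟩ := Metric.isOpen_iff.1 isOpen_interior x₁ hx₁
  refine ⟨0, ?_⟩
  rw [mem_interior]
  refine ⟨Metric.ball 0 (ε / 2), ?_, Metric.isOpen_ball, Metric.mem_ball_self (by positivity)⟩
  intro z hz
  have hz' : ‖z‖ < ε / 2 := by simpa using hz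
  have h1 : x₁ + (2 : ℝ) • z ∈ Metric.ball x₁ ε := by
    rw [mem_ball_iff_norm]
    have : x₁ + (2 : ℝ) • z - x₁ = (2 : ℝ) • z := by abel
    rw [this, norm_smul]
    simp only [Real.norm_ofNat]
    linarith
  refine ⟨(x₁ + (2 : ℝ) • z, x₁), ⟨interior_subset (hb h1), interior_subset hx₁⟩, ?_⟩
  ext i
  simp only [Pi.add_apply, Pi.smul_apply, Pi.neg_apply, smul_eq_mul]
  ring

lemma supp_symz (hM : IsCompact M) (u : ι → ℝ) : supp (symz M) u = wid M u := by
  rcases M.eq_empty_or_nonempty with rfl | hne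
  · simp [symz, wid, supp_empty]
  have hc := symz_compact hM
  have hne' : (symz M).Nonempty := (hne.prod hne).image _
  apply le_antisymm
  · obtain ⟨z, ⟨⟨a, b⟩, ⟨ha, hb⟩, rfl⟩, h⟩ := exists_supp hc hne' u
    rw [← h]
    have h1 := le_supp hM ha u
    have h2 := le_supp hM hb (-u)
    rw [dot_neg'] at h2
    have e : dotProduct ((1 / 2 : ℝ) • a + (1 - 1 / 2 : ℝ) • (-b)) u
        = (dotProduct a u - dotProduct b u) / 2 := by
      simp only [add_dotProduct, smul_dotProduct, neg_dot', smul_eq_mul]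
      ring
    simp only [wid]
    rw [e]
    linarith
  · obtain ⟨a, ha, h1⟩ := exists_supp hM hne u
    obtain ⟨b, hb, h2⟩ := exists_supp hM hne (-u)
    have h3 := le_supp hc (x := (1 / 2 : ℝ) • a + (1 - 1 / 2 : ℝ) • (-b)) ⟨(a, b), ⟨ha, hb⟩, rfl⟩ u
    have e : dotProduct ((1 / 2 : ℝ) • a + (1 - 1 / 2 : ℝ) • (-b)) u
        = (dotProduct a u - dotProduct b u) / 2 := by
      simp only [add_dotProduct, smul_dotProduct, neg_dot', smul_eq_mul]
      ring
    rw [e] at h3
    rw [dot_neg'] at h2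
    simp only [wid]
    linarith

lemma volume_le_symz (hM : IsCompact M) : volume M ≤ volume (symz M) := by
  have hmeas : MeasurableSet M := hM.isClosed.measurableSet
  have hneg : MeasurableSet (-M) := hmeas.neg
  have key := Vale.Agent.Lib.P248.brunn_minkowski_mul (A := M) (B := -M) (C := symz M) hmeas hneg
    (symz_compact hM).isClosed.measurableSet (θ := 1 / 2) (by norm_num) (by norm_num) (by
      intro x hx y hy
      exact ⟨(x, -y), ⟨hx, hy⟩, by simp⟩)
  have hv : volume (-M) = volume M := Measure.measure_neg volume M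
  rw [hv, ← ENNReal.rpow_add_of_nonneg _ _ (by norm_num) (by norm_num)] at key
  have e : (1 / 2 : ℝ) + (1 - 1 / 2) = 1 := by norm_num
  rwa [e, ENNReal.rpow_one] at key

end Vale.Agent.Lib.P227G
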