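import Mathlib
import Vale.Agent.Lib.P227G.Support

/-!
# Logarithmic Minkowski inequalities along fibers
-/

open MeasureTheory Set Filter Topology
open scoped ENNReal

namespace Vale.Agent.Lib.P227G

variable {κ ι : Type*} [Fintype κ] [Fintype ι]

/-- The logarithmic Minkowski property of a measure on directions with constant `V`. -/
def HasLM (V : ℝ) (ν : Measure (ι → ℝ)) : Prop :=
  ∀ M : Set (ι → ℝ), IsSymBody M →
    volume M ≤ ENNReal.ofReal (V * Real.exp ((Fintype.card ι : ℝ) * ∫ u, Real.log (supp M u) ∂ν))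

/-- The logarithmic Minkowski property passes to general convex bodies with the width function. -/
lemma HasLM.wid_le [Nonempty ι] {V : ℝ} {ν : Measure (ι → ℝ)} (h : HasLM V ν) {M : Set (ι → ℝ)}
    (hc : IsCompact M) (hconv : Convex ℝ M) (hint : (interior M).Nonempty) :
    volume M ≤ ENNReal.ofReal (V * Real.exp ((Fintype.card ι : ℝ) * ∫ u, Real.log (wid M u) ∂ν)) := by
  have hb : IsSymBody (symz M) :=
    ⟨symz_compact hc, symz_convex hconv, fun _ hx => symz_symm hx, symz_interior hint⟩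
  have h1 := h _ hb
  simp_rw [supp_symz hc] at h1
  exact (volume_le_symz hc).trans h1

/-- The slice of a subset of a product. -/
def slice (S : Set ((κ → ℝ) × (ι → ℝ))) (τ : κ → ℝ) : Set (ι → ℝ) := Prod.mk τ ⁻¹' S

variable {S : Set ((κ → ℝ) × (ι → ℝ))}

lemma slice_compact (hS : IsCompact S) (τ : κ → ℝ) : IsCompact (slice S τ) := by
  have hcl : IsClosed (slice S τ) := hS.isClosed.preimage (by fun_prop)
  refine (hS.image continuous_snd).of_isClosed_subset hcl ?_
  intro x hx
  exact ⟨(τ, x), hx, rfl⟩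

lemma slice_convex (hS : Convex ℝ S) (τ : κ → ℝ) : Convex ℝ (slice S τ) := by
  intro x hx y hy s t hs ht hst
  have := hS hx hy hs ht hst
  simp only [slice, mem_preimage, Prod.smul_mk, Prod.mk_add_mk, ← add_smul, hst, one_smul] at this ⊢
  exact this

/-- Measurability of the support function of a slice. -/
lemma measurable_supp_slice (hS : IsCompact S) :
    Measurable fun z : (κ → ℝ) × (ι → ℝ) => supp (slice S z.1) z.2 := by
  apply measurable_of_Ici
  intro c
  set A : Set ((κ → ℝ) × (ι → ℝ)) := {z | ∃ x, (z.1, x) ∈ S ∧ c ≤ dotProduct x z.2} with hA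
  set E : Set ((κ → ℝ) × (ι → ℝ)) := {z | slice S z.1 = ∅} with hE
  have hAm : MeasurableSet A := by
    have : A = ⋃ ρ : ℕ, (fun w : ((κ → ℝ) × (ι → ℝ)) × (ι → ℝ) => (w.1.1, w.2)) ''
        ((S ×ˢ Metric.closedBall (0 : ι → ℝ) ρ) ∩ {w | c ≤ dotProduct w.1.2 w.2}) := by
      ext z
      simp only [mem_iUnion, mem_image, mem_inter_iff, mem_prod, mem_ofPred_eq, hA]
      constructor
      · rintro ⟨x, hx, hc⟩
        obtain ⟨ρ, hρ⟩ := exists_nat_ge ‖z.2‖
        refine ⟨ρ, ((z.1, x), z.2), ⟨⟨hx, by simpa using hρ⟩, hc⟩, rfl⟩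
      · rintro ⟨ρ, ⟨w₁, w₂⟩, ⟨⟨h1, _⟩, h3⟩, rfl⟩
        exact ⟨w₁.2, h1, h3⟩
    rw [this]
    refine MeasurableSet.iUnion fun ρ => ?_
    have hcl : IsClosed {w : ((κ → ℝ) × (ι → ℝ)) × (ι → ℝ) | c ≤ dotProduct w.1.2 w.2} := by
      refine isClosed_le continuous_const ?_
      have := (continuous_dot (ι := ι)).comp
        (f := fun w : ((κ → ℝ) × (ι → ℝ)) × (ι → ℝ) => (w.2, w.1.2)) (by fun_prop)
      exact this
    have hcomp := ((hS.prod (isCompact_closedBall (0 : ι → ℝ) (ρ : ℝ))).inter_right hcl).image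
      (f := fun w : ((κ → ℝ) × (ι → ℝ)) × (ι → ℝ) => (w.1.1, w.2)) (by fun_prop)
    exact hcomp.isClosed.measurableSet
  have hEm : MeasurableSet E := by
    have : E = ((Prod.fst '' S : Set (κ → ℝ)) ×ˢ (univ : Set (ι → ℝ)))ᶜ := by
      ext z
      simp only [hE, mem_ofPred_eq, mem_compl_iff, mem_prod, mem_univ, and_true, mem_image, not_exists,
        not_and, Set.eq_empty_iff_forall_notMem, slice, mem_preimage]
      constructor
      · rintro h ⟨τ, x⟩ hx rfl
        exact h x hx
      · intro h x hx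
        exact h _ hx rfl
    rw [this]
    exact (((hS.image continuous_fst).isClosed.measurableSet).prod MeasurableSet.univ).compl
  have : (fun z : (κ → ℝ) × (ι → ℝ) => supp (slice S z.1) z.2) ⁻¹' Ici c
      = A ∪ (E ∩ {_z | c ≤ 0}) := by
    ext z
    simp only [mem_preimage, mem_Ici, mem_union, mem_inter_iff, mem_ofPred_eq, hA, hE]
    by_cases hz : slice S z.1 = ∅
    · rw [hz, supp_empty]
      constructor
      · intro h
        exact Or.inr ⟨rfl, h⟩
      · rintro (⟨x, hx, _⟩ | ⟨_, h⟩)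
        · have : x ∈ slice S z.1 := hx
          rw [hz] at this
          exact absurd this (notMem_empty x)
        · exact h
    · have hne := Set.nonempty_iff_ne_empty.2 hz
      constructor
      · intro h
        obtain ⟨x, hx, h1⟩ := exists_supp (slice_compact hS z.1) hne z.2
        exact Or.inl ⟨x, hx, by rw [h1]; exact h⟩
      · rintro (⟨x, hx, h1⟩ | ⟨h, _⟩)
        · exact h1.trans (le_supp (slice_compact hS z.1) hx z.2)
        · exact absurd h hz
  rw [this]
  exact hAm.union (hEm.inter (MeasurableSet.const _))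

lemma measurable_wid_slice (hS : IsCompact S) :
    Measurable fun z : (κ → ℝ) × (ι → ℝ) => wid (slice S z.1) z.2 := by
  have h := measurable_supp_slice hS
  have h2 : Measurable fun z : (κ → ℝ) × (ι → ℝ) => supp (slice S z.1) (- z.2) :=
    h.comp (f := fun z : (κ → ℝ) × (ι → ℝ) => (z.1, - z.2))
      (measurable_fst.prodMk measurable_snd.neg)
  exact (h.add h2).div_const 2

/-- Logarithms of quantities between two bounds are bounded. -/
lemma abs_log_le_of_bounds {x m M : ℝ} (hm : 0 < m) (h1 : m ≤ x) (h2 : x ≤ M) :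
    |Real.log x| ≤ max |Real.log m| |Real.log M| := by
  have h3 := Real.log_le_log hm h1
  have h4 := Real.log_le_log (lt_of_lt_of_le hm h1) h2
  rw [abs_le]
  constructor
  · have := neg_abs_le (Real.log m)
    have h5 : |Real.log m| ≤ max |Real.log m| |Real.log M| := le_max_left _ _
    linarith
  · have := le_abs_self (Real.log M)
    have h5 : |Real.log M| ≤ max |Real.log m| |Real.log M| := le_max_right _ _
    linarith

/-- Jensen's inequality for the exponential in the form used below. -/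
lemma ofReal_exp_integral_le {α : Type*} [MeasurableSpace α] {μ : Measure α}
    [IsProbabilityMeasure μ] {φ : α → ℝ} (hφ : Integrable φ μ) :
    ENNReal.ofReal (Real.exp (∫ u, φ u ∂μ)) ≤ ∫⁻ u, ENNReal.ofReal (Real.exp (φ u)) ∂μ := by
  by_cases hfin : ∫⁻ u, ENNReal.ofReal (Real.exp (φ u)) ∂μ = ∞
  · rw [hfin]
    exact le_top
  have hi : Integrable (Real.exp ∘ φ) μ := by
    refine ⟨Real.continuous_exp.comp_aestronglyMeasurable hφ.aestronglyMeasurable, ?_⟩
    have hnn : 0 ≤ᵐ[μ] (Real.exp ∘ φ) := Eventually.of_forall fun u => (Real.exp_pos _).le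
    rw [hasFiniteIntegral_iff_ofReal hnn]
    exact lt_top_iff_ne_top.2 hfin
  have hj := convexOn_exp.map_integral_le Real.continuous_exp.continuousOn isClosed_univ
    (Eventually.of_forall fun _ => mem_univ _) hφ hi
  calc ENNReal.ofReal (Real.exp (∫ u, φ u ∂μ))
      ≤ ENNReal.ofReal (∫ u, (Real.exp ∘ φ) u ∂μ) := ENNReal.ofReal_le_ofReal hj
    _ = ∫⁻ u, ENNReal.ofReal (Real.exp (φ u)) ∂μ :=
        ofReal_integral_eq_lintegral_ofReal hi (Eventually.of_forall fun u => (Real.exp_pos _).le)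

/-- A body containing a ball has a width function bounded below, and above if it is bounded. -/
lemma wid_bounds [Nonempty ι] {M : Set (ι → ℝ)} (hM : IsCompact M) {x₀ : ι → ℝ} {ε R : ℝ} (hε : 0 ≤ ε)
    (hb : Metric.closedBall x₀ ε ⊆ M) (hR : 0 ≤ R) (hRb : ∀ x ∈ M, ‖x‖ ≤ R) (u : ι → ℝ) :
    ε * ‖u‖ ≤ wid M u ∧ wid M u ≤ R * Fintype.card ι * ‖u‖ := by
  have h1 := supp_lower hM hε hb u
  have h2 := supp_lower hM hε hb (-u)
  have h3 := supp_upper hM hR hRb u
  have h4 := supp_upper hM hR hRb (-u)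
  rw [dot_neg', norm_neg] at h2
  rw [norm_neg] at h4
  unfold wid
  constructor <;> linarith

/-- The inequality for one slice. -/
lemma slice_bound [Nonempty ι] {V : ℝ} (hV : 0 ≤ V) {ν : Measure (ι → ℝ)} [IsProbabilityMeasure ν]
    (hshell : ∃ c C : ℝ, 0 < c ∧ ∀ᵐ u ∂ν, c ≤ ‖u‖ ∧ ‖u‖ ≤ C) (hLM : HasLM V ν)
    {M : Set (ι → ℝ)} (hM : IsCompact M) (hconv : Convex ℝ M)
    {B : (ι → ℝ) → ℝ} (hBi : Integrable B ν) :
    volume M ≤ ENNReal.ofReal (V * Real.exp (∫ u, B u ∂ν)) *
      ∫⁻ u, ENNReal.ofReal (wid M u ^ Fintype.card ι) * ENNReal.ofReal (Real.exp (- B u)) ∂ν := by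
  by_cases hint : (interior M).Nonempty
  · set n := Fintype.card ι with hn
    obtain ⟨x₀, hx₀⟩ := hint
    have hnhds : M ∈ 𝓝 x₀ := mem_interior_iff_mem_nhds.1 hx₀
    obtain ⟨ε, hε, hball⟩ := Metric.nhds_basis_closedBall.mem_iff.1 hnhds
    obtain ⟨R, hR⟩ := hM.isBounded.exists_norm_le
    have hR0 : 0 ≤ R := (norm_nonneg _).trans (hR x₀ (hball (Metric.mem_closedBall_self hε.le)))
    obtain ⟨c, C, hc, hsh⟩ := hshell
    have hbd : ∀ᵐ u ∂ν, ε * c ≤ wid M u ∧ wid M u ≤ R * n * C := by
      filter_upwards [hsh] with u hu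
      obtain ⟨h1, h2⟩ := wid_bounds hM hε.le hball hR0 hR u
      constructor
      · exact (mul_le_mul_of_nonneg_left hu.1 hε.le).trans h1
      · exact h2.trans (mul_le_mul_of_nonneg_left hu.2 (by positivity))
    have hcontw := continuous_wid hM
    have hlogm : Measurable fun u => Real.log (wid M u) :=
      Real.measurable_log.comp hcontw.measurable
    have hlogi : Integrable (fun u => Real.log (wid M u)) ν := by
      refine Integrable.of_bound hlogm.aestronglyMeasurable
        (max |Real.log (ε * c)| |Real.log (R * n * C)|) ?_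
      filter_upwards [hbd] with u hu
      rw [Real.norm_eq_abs]
      exact abs_log_le_of_bounds (by positivity) hu.1 hu.2
    set φ : (ι → ℝ) → ℝ := fun u => (n : ℝ) * Real.log (wid M u) - B u with hφ
    have hφi : Integrable φ ν := (hlogi.const_mul _).sub hBi
    have e1 : (n : ℝ) * ∫ u, Real.log (wid M u) ∂ν = ∫ u, B u ∂ν + ∫ u, φ u ∂ν := by
      rw [hφ, integral_sub (hlogi.const_mul _) hBi, integral_const_mul]
      ring
    have h1 := hLM.wid_le hM hconv ⟨x₀, hx₀⟩
    rw [← hn, e1, Real.exp_add, ← mul_assoc,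
      ENNReal.ofReal_mul (mul_nonneg hV (Real.exp_pos _).le)] at h1
    refine h1.trans (mul_le_mul' le_rfl ((ofReal_exp_integral_le hφi).trans (le_of_eq ?_)))
    refine lintegral_congr_ae ?_
    filter_upwards [hbd] with u hu
    have hw : 0 < wid M u := lt_of_lt_of_le (by positivity) hu.1
    rw [← ENNReal.ofReal_mul (by positivity)]
    congr 1
    simp only [hφ]
    rw [sub_eq_add_neg, Real.exp_add, Real.exp_nat_mul, Real.exp_log hw]
  · have hnull : volume M = 0 := by
      have h0 : interior M = ∅ := Set.not_nonempty_iff_eq_empty.1 hint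
      have hfr := hconv.addHaar_frontier (volume : Measure (ι → ℝ))
      refine measure_mono_null ?_ hfr
      intro x hx
      rw [frontier, h0, diff_empty]
      exact subset_closure hx
    rw [hnull]
    exact bot_le

/-- The fiber inequality. -/
theorem fiber_bound [Nonempty ι] {V : ℝ} (hV : 0 ≤ V) {ν : Measure (ι → ℝ)} [IsProbabilityMeasure ν]
    (hshell : ∃ c C : ℝ, 0 < c ∧ ∀ᵐ u ∂ν, c ≤ ‖u‖ ∧ ‖u‖ ≤ C) (hLM : HasLM V ν)
    (hS : IsCompact S) (hconv : Convex ℝ S)
    {B : (ι → ℝ) → ℝ} (hBm : Measurable B) (hBi : Integrable B ν)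
    (hB : ∀ᵐ u ∂ν, ∫⁻ τ, ENNReal.ofReal (wid (slice S τ) u ^ Fintype.card ι)
      ≤ ENNReal.ofReal (Real.exp (B u))) :
    volume S ≤ ENNReal.ofReal (V * Real.exp (∫ u, B u ∂ν)) := by
  set n := Fintype.card ι with hn
  have hSm : MeasurableSet S := hS.isClosed.measurableSet
  have hwm := measurable_wid_slice (κ := κ) hS
  set G : (κ → ℝ) × (ι → ℝ) → ℝ≥0∞ := fun z => ENNReal.ofReal (wid (slice S z.1) z.2 ^ n)
    * ENNReal.ofReal (Real.exp (- B z.2)) with hG
  have hGm : Measurable G := by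
    refine (ENNReal.measurable_ofReal.comp (hwm.pow_const n)).mul ?_
    exact ENNReal.measurable_ofReal.comp (Real.measurable_exp.comp (hBm.comp measurable_snd).neg)
  have hkey : ∀ τ, volume (slice S τ) ≤ ENNReal.ofReal (V * Real.exp (∫ u, B u ∂ν)) *
      ∫⁻ u, G (τ, u) ∂ν := fun τ =>
    slice_bound hV hshell hLM (slice_compact hS τ) (slice_convex hconv τ) hBi
  have h0 : volume S = ∫⁻ τ, volume (slice S τ) := by
    rw [Measure.volume_eq_prod, Measure.prod_apply hSm]
    rfl
  rw [h0]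
  have hinner : Measurable fun τ : κ → ℝ => ∫⁻ u, G (τ, u) ∂ν := hGm.lintegral_prod_right' (ν := ν)
  calc ∫⁻ τ, volume (slice S τ)
      ≤ ∫⁻ τ, ENNReal.ofReal (V * Real.exp (∫ u, B u ∂ν)) * ∫⁻ u, G (τ, u) ∂ν := lintegral_mono hkey
    _ = ENNReal.ofReal (V * Real.exp (∫ u, B u ∂ν)) * ∫⁻ τ, ∫⁻ u, G (τ, u) ∂ν :=
        lintegral_const_mul _ hinner
    _ ≤ ENNReal.ofReal (V * Real.exp (∫ u, B u ∂ν)) * 1 := by
        refine mul_le_mul' le_rfl ?_
        rw [lintegral_lintegral_swap (f := fun τ u => G (τ, u)) hGm.aemeasurable]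
        calc ∫⁻ u, ∫⁻ τ, G (τ, u) ∂volume ∂ν ≤ ∫⁻ _u, 1 ∂ν := by
              refine lintegral_mono_ae ?_
              filter_upwards [hB] with u hu
              have hm1 : Measurable fun τ : κ → ℝ => ENNReal.ofReal (wid (slice S τ) u ^ n) :=
                ENNReal.measurable_ofReal.comp
                  ((hwm.comp (measurable_id.prodMk measurable_const)).pow_const n)
              simp only [hG]
              rw [lintegral_mul_const _ hm1]
              calc _ ≤ ENNReal.ofReal (Real.exp (B u)) * ENNReal.ofReal (Real.exp (- B u)) :=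
                    mul_le_mul' hu le_rfl
                _ = 1 := by
                    rw [← ENNReal.ofReal_mul (Real.exp_pos _).le, ← Real.exp_add]
                    simp
          _ = 1 := by simp
    _ = _ := mul_one _

end Vale.Agent.Lib.P227G
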