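import Mathlib
import Vale.Agent.Lib.P248.PL4

/-!
# A first-order consequence of the one-dimensional Prekopa-Leindler inequality
-/

open MeasureTheory Set Filter Topology
open scoped ENNReal

namespace Vale.Agent.Lib.P227G

/-- The probability measure with density proportional to `F`. -/
noncomputable def wmeas (F : ℝ → ℝ) (Z : ℝ) : Measure ℝ :=
  ENNReal.ofReal (1 / Z) • volume.withDensity fun v => ENNReal.ofReal (F v)

lemma wmeas_isProb {F : ℝ → ℝ} {Z : ℝ} (hZ : 0 < Z) (hFm : Measurable F)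
    (hZeq : ∫⁻ v, ENNReal.ofReal (F v) = ENNReal.ofReal Z) : IsProbabilityMeasure (wmeas F Z) := by
  constructor
  simp only [wmeas, Measure.smul_apply, smul_eq_mul]
  rw [withDensity_apply _ MeasurableSet.univ, Measure.restrict_univ, hZeq,
    ← ENNReal.ofReal_mul (by positivity)]
  simp [hZ.ne']

/-- Elementary inequality used for small exponents. -/
lemma exp_le_quad {x : ℝ} (hx : |x| ≤ 1) : Real.exp x ≤ 1 + x + x ^ 2 := by
  have := Real.abs_exp_sub_one_sub_id_le hx
  have h2 := (abs_le.1 this).2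
  linarith

/-- One step of the limit: the inequality at a small exponent. -/
lemma pl_step {F : ℝ → ℝ} {g : ℝ → ℝ≥0∞} {s Y : ℝ → ℝ} (hFm : Measurable F)
    (hFpos : ∀ v, 0 < F v) (hgm : Measurable g) (hYm : Measurable Y)
    (h1 : ∀ v v₁, F v₁ ≤ F v * Real.exp (- s v * (v₁ - v)))
    (h2 : ∀ v v₂, g v₂ ≤ ENNReal.ofReal (F v * Real.exp (- s v * (v₂ - v) + Y v)))
    {l : ℝ} (hl0 : 0 < l) (hl1 : l < 1) :
    (∫⁻ v, ENNReal.ofReal (F v)) ^ (1 - l) * (∫⁻ v, g v) ^ l
      ≤ ∫⁻ v, ENNReal.ofReal (F v * Real.exp (l * Y v)) := by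
  have hθ0 : 0 < 1 - l := by linarith
  have hθ1 : 1 - l < 1 := by linarith
  have key := Vale.Agent.Lib.P248.pl1d (f := fun v => ENNReal.ofReal (F v)) (g := g)
    (h := fun v => ENNReal.ofReal (F v * Real.exp (l * Y v)))
    (ENNReal.measurable_ofReal.comp hFm) hgm
    (ENNReal.measurable_ofReal.comp (hFm.mul (Real.measurable_exp.comp (measurable_const.mul hYm))))
    hθ0 hθ1 ?_
  · simpa using key
  intro x y
  have e1 : (1 : ℝ) - (1 - l) = l := by ring
  simp only [e1]
  set w := (1 - l) * x + l * y with hw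
  have a1 : ENNReal.ofReal (F x) ≤ ENNReal.ofReal (F w * Real.exp (- s w * (x - w))) :=
    ENNReal.ofReal_le_ofReal (h1 w x)
  have a2 := h2 w y
  have p1 : 0 < F w * Real.exp (- s w * (x - w)) := mul_pos (hFpos w) (Real.exp_pos _)
  have p2 : 0 < F w * Real.exp (- s w * (y - w) + Y w) := mul_pos (hFpos w) (Real.exp_pos _)
  calc ENNReal.ofReal (F x) ^ (1 - l) * g y ^ l
      ≤ ENNReal.ofReal (F w * Real.exp (- s w * (x - w))) ^ (1 - l)
          * ENNReal.ofReal (F w * Real.exp (- s w * (y - w) + Y w)) ^ l := by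
        gcongr
    _ = ENNReal.ofReal (F w * Real.exp (l * Y w)) := by
        rw [ENNReal.ofReal_rpow_of_pos p1, ENNReal.ofReal_rpow_of_pos p2,
          ← ENNReal.ofReal_mul (Real.rpow_nonneg p1.le _)]
        congr 1
        have hFw := hFpos w
        rw [Real.mul_rpow hFw.le (Real.exp_pos _).le, Real.mul_rpow hFw.le (Real.exp_pos _).le,
          ← Real.exp_mul, ← Real.exp_mul]
        have e2 : F w ^ (1 - l) * Real.exp (- s w * (x - w) * (1 - l))
            * (F w ^ l * Real.exp ((- s w * (y - w) + Y w) * l))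
            = (F w ^ (1 - l) * F w ^ l)
              * Real.exp (- s w * (x - w) * (1 - l) + (- s w * (y - w) + Y w) * l) := by
          rw [Real.exp_add]
          ring
        rw [e2, ← Real.rpow_add hFw]
        have e3 : 1 - l + l = 1 := by ring
        rw [e3, Real.rpow_one]
        congr 2
        rw [hw]
        ring

/-- The first-order form of the Prekopa-Leindler inequality. -/
theorem pl_limit {F : ℝ → ℝ} {g : ℝ → ℝ≥0∞} {s Y : ℝ → ℝ} (hFm : Measurable F)
    (hFpos : ∀ v, 0 < F v) (hgm : Measurable g) (hYm : Measurable Y) {C : ℝ}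
    (hYC : ∀ v, |Y v| ≤ C)
    (h1 : ∀ v v₁, F v₁ ≤ F v * Real.exp (- s v * (v₁ - v)))
    (h2 : ∀ v v₂, g v₂ ≤ ENNReal.ofReal (F v * Real.exp (- s v * (v₂ - v) + Y v)))
    {Z : ℝ} (hZ : 0 < Z) (hZeq : ∫⁻ v, ENNReal.ofReal (F v) = ENNReal.ofReal Z) :
    ∫⁻ v, g v ≤ ENNReal.ofReal (Z * Real.exp (∫ v, Y v ∂(wmeas F Z))) := by
  have hC0 : 0 ≤ C := (abs_nonneg _).trans (hYC 0)
  set Ybar := ∫ v, Y v ∂(wmeas F Z) with hYbar
  haveI := wmeas_isProb hZ hFm hZeq
  have hFnn : ∀ v, 0 ≤ F v := fun v => (hFpos v).le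
  -- integrability
  have hFint : Integrable F := by
    refine ⟨hFm.aestronglyMeasurable, ?_⟩
    rw [hasFiniteIntegral_iff_ofReal (Eventually.of_forall hFnn), hZeq]
    exact ENNReal.ofReal_lt_top
  have hFZ : ∫ v, F v = Z := by
    have := integral_eq_lintegral_of_nonneg_ae (μ := volume) (f := F) (Eventually.of_forall hFnn)
      hFm.aestronglyMeasurable
    rw [this, hZeq, ENNReal.toReal_ofReal hZ.le]
  have hFY : Integrable fun v => F v * Y v := by
    refine hFint.mul_bdd (c := C) hYm.aestronglyMeasurable (Eventually.of_forall fun v => ?_)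
    simpa using hYC v
  have hbar : ∫ v, F v * Y v = Z * Ybar := by
    have : Ybar = ∫ v, Y v ∂(wmeas F Z) := rfl
    have hdm : Measurable fun v => ENNReal.ofReal (F v) := ENNReal.measurable_ofReal.comp hFm
    simp only [wmeas] at this
    rw [integral_smul_measure, ENNReal.toReal_ofReal (by positivity),
      integral_withDensity_eq_integral_toReal_smul hdm
        (Eventually.of_forall fun v => ENNReal.ofReal_lt_top)] at this
    simp only [ENNReal.toReal_ofReal (hFnn _), smul_eq_mul] at this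
    rw [this]
    field_simp
  -- the step
  have step : ∀ l : ℝ, 0 < l → l < 1 → l * C ≤ 1 →
      ENNReal.ofReal Z ^ (1 - l) * (∫⁻ v, g v) ^ l
        ≤ ENNReal.ofReal (Z * (1 + l * Ybar + l ^ 2 * C ^ 2)) := by
    intro l hl0 hl1 hlC
    have h3 := pl_step hFm hFpos hgm hYm h1 h2 hl0 hl1
    rw [hZeq] at h3
    refine h3.trans ?_
    have hbd : ∀ v, F v * Real.exp (l * Y v) ≤ F v * (1 + l * Y v + l ^ 2 * C ^ 2) := by
      intro v
      apply mul_le_mul_of_nonneg_left _ (hFnn v)
      have h4 : |l * Y v| ≤ 1 := by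
        rw [abs_mul, abs_of_pos hl0]
        exact (mul_le_mul_of_nonneg_left (hYC v) hl0.le).trans hlC
      have h5 := exp_le_quad h4
      have h6 : (l * Y v) ^ 2 ≤ l ^ 2 * C ^ 2 := by
        rw [mul_pow]
        apply mul_le_mul_of_nonneg_left _ (by positivity)
        exact sq_le_sq' (by linarith [(abs_le.1 (hYC v)).1]) (abs_le.1 (hYC v)).2
      linarith
    have hnn : ∀ v, 0 ≤ F v * (1 + l * Y v + l ^ 2 * C ^ 2) := fun v =>
      le_trans (mul_nonneg (hFnn v) (Real.exp_pos _).le) (hbd v)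
    have hint : Integrable fun v => F v * (1 + l * Y v + l ^ 2 * C ^ 2) := by
      have : (fun v => F v * (1 + l * Y v + l ^ 2 * C ^ 2))
          = fun v => (1 + l ^ 2 * C ^ 2) * F v + l * (F v * Y v) := by
        ext v
        ring
      rw [this]
      exact (hFint.const_mul _).add (hFY.const_mul _)
    calc ∫⁻ v, ENNReal.ofReal (F v * Real.exp (l * Y v))
        ≤ ∫⁻ v, ENNReal.ofReal (F v * (1 + l * Y v + l ^ 2 * C ^ 2)) :=
          lintegral_mono fun v => ENNReal.ofReal_le_ofReal (hbd v)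
      _ = ENNReal.ofReal (∫ v, F v * (1 + l * Y v + l ^ 2 * C ^ 2)) :=
          (ofReal_integral_eq_lintegral_ofReal hint (Eventually.of_forall hnn)).symm
      _ = _ := by
          congr 1
          have : (fun v => F v * (1 + l * Y v + l ^ 2 * C ^ 2))
              = fun v => (1 + l ^ 2 * C ^ 2) * F v + l * (F v * Y v) := by
            ext v
            ring
          rw [this, integral_add (hFint.const_mul _) (hFY.const_mul _), integral_const_mul,
            integral_const_mul, hFZ, hbar]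
          ring
  -- choose small exponents
  set B := ∫⁻ v, g v with hB
  have hsmall : ∀ l : ℝ, 0 < l → l < 1 → l * C ≤ 1 →
      B ≤ ENNReal.ofReal (Z * Real.exp (Ybar + l * C ^ 2)) := by
    intro l hl0 hl1 hlC
    have hs := step l hl0 hl1 hlC
    have hb1 : 1 + l * Ybar + l ^ 2 * C ^ 2 ≤ Real.exp (l * (Ybar + l * C ^ 2)) := by
      have := Real.add_one_le_exp (l * (Ybar + l * C ^ 2))
      nlinarith
    have hs2 : ENNReal.ofReal Z ^ (1 - l) * B ^ l
        ≤ ENNReal.ofReal (Z * Real.exp (l * (Ybar + l * C ^ 2))) :=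
      hs.trans (ENNReal.ofReal_le_ofReal (mul_le_mul_of_nonneg_left hb1 hZ.le))
    have hZl : ENNReal.ofReal Z ^ (1 - l) = ENNReal.ofReal (Z ^ (1 - l)) :=
      ENNReal.ofReal_rpow_of_pos hZ
    rw [hZl] at hs2
    have hZlp : 0 < Z ^ (1 - l) := Real.rpow_pos_of_pos hZ _
    -- finiteness
    have hBfin : B ≠ ∞ := by
      intro htop
      rw [htop, ENNReal.top_rpow_of_pos hl0, ENNReal.mul_top (by simpa using hZlp)] at hs2
      exact absurd hs2 (by simp)
    obtain ⟨b, hb0, hbB⟩ : ∃ b : ℝ, 0 ≤ b ∧ B = ENNReal.ofReal b :=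
      ⟨B.toReal, ENNReal.toReal_nonneg, (ENNReal.ofReal_toReal hBfin).symm⟩
    rw [hbB]
    apply ENNReal.ofReal_le_ofReal
    rcases hb0.eq_or_lt with rfl | hbpos
    · positivity
    rw [hbB, ENNReal.ofReal_rpow_of_pos hbpos, ← ENNReal.ofReal_mul hZlp.le,
      ENNReal.ofReal_le_ofReal_iff (by positivity)] at hs2
    -- pass to logarithms
    have hlog := Real.log_le_log (mul_pos hZlp (Real.rpow_pos_of_pos hbpos _)) hs2
    rw [Real.log_mul hZlp.ne' (Real.rpow_pos_of_pos hbpos _).ne', Real.log_rpow hZ, Real.log_rpow hbpos,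
      Real.log_mul hZ.ne' (Real.exp_pos _).ne', Real.log_exp] at hlog
    have hlog2 : Real.log b ≤ Real.log Z + (Ybar + l * C ^ 2) := by
      have : l * Real.log b ≤ l * (Real.log Z + (Ybar + l * C ^ 2)) := by nlinarith
      exact le_of_mul_le_mul_left this hl0
    have := Real.exp_le_exp.2 hlog2
    rwa [Real.exp_log hbpos, Real.exp_add, Real.exp_log hZ] at this
  -- pass to the limit
  have hlim : Tendsto (fun l : ℝ => ENNReal.ofReal (Z * Real.exp (Ybar + l * C ^ 2))) (𝓝[>] 0)
      (𝓝 (ENNReal.ofReal (Z * Real.exp (Ybar + 0 * C ^ 2)))) := by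
    refine Tendsto.mono_left ?_ nhdsWithin_le_nhds
    have hc : Continuous fun l : ℝ => ENNReal.ofReal (Z * Real.exp (Ybar + l * C ^ 2)) :=
      ENNReal.continuous_ofReal.comp (by fun_prop)
    exact hc.tendsto 0
  have hev : ∀ᶠ l : ℝ in 𝓝[>] 0, B ≤ ENNReal.ofReal (Z * Real.exp (Ybar + l * C ^ 2)) := by
    have h3 : ∀ᶠ l : ℝ in 𝓝[>] 0, l < min 1 (1 / (C + 1)) :=
      eventually_nhdsWithin_of_eventually_nhds
        (eventually_lt_nhds (lt_min zero_lt_one (by positivity)))
    filter_upwards [h3, self_mem_nhdsWithin] with l hl hl0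
    have hl0' : 0 < l := hl0
    have hl1 : l < 1 := lt_of_lt_of_le hl (min_le_left _ _)
    have hl2 : l < 1 / (C + 1) := lt_of_lt_of_le hl (min_le_right _ _)
    refine hsmall l hl0' hl1 ?_
    have hC1 : 0 < C + 1 := by linarith
    rw [lt_div_iff₀ hC1] at hl2
    nlinarith
  have := ge_of_tendsto hlim hev
  simpa using this

end Vale.Agent.Lib.P227G
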