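import Mathlib
import Vale.Agent.Lib.P227G.Zset
import Vale.Agent.Lib.P227G.Radial
import Vale.Agent.Lib.P227G.PLLimit

/-!
# The planar logarithmic Minkowski inequality along a node
-/

open MeasureTheory Set Filter Topology
open scoped ENNReal

namespace Vale.Agent.Lib.P227G

/-- An absolute norm on the plane. -/
structure IsAbsNorm (D : ℝ → ℝ → ℝ) : Prop where
  abs_eq : ∀ s t, D s t = D |s| |t|
  smul : ∀ c s t, D (c * s) (c * t) = |c| * D s t
  add_le : ∀ s t s' t', D (s + s') (t + t') ≤ D s t + D s' t'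
  pos : ∀ s t, (s ≠ 0 ∨ t ≠ 0) → 0 < D s t

/-- A measurable selection of subgradients of an absolute norm along the rays of slope `exp v`. -/
structure IsNode (D : ℝ → ℝ → ℝ) (a b : ℝ → ℝ) : Prop where
  a_meas : Measurable a
  b_meas : Measurable b
  a_nonneg : ∀ v, 0 ≤ a v
  b_nonneg : ∀ v, 0 ≤ b v
  eval : ∀ v, a v + b v * Real.exp v = D 1 (Real.exp v)
  sub : ∀ v s t, 0 ≤ s → 0 ≤ t → a v * s + b v * t ≤ D s t

variable {D : ℝ → ℝ → ℝ} {a b : ℝ → ℝ}

lemma IsAbsNorm.homog (hD : IsAbsNorm D) {c : ℝ} (hc : 0 ≤ c) (s t : ℝ) :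
    D (c * s) (c * t) = c * D s t := by
  rw [hD.smul, abs_of_nonneg hc]

lemma IsAbsNorm.nonneg (hD : IsAbsNorm D) (s t : ℝ) : 0 ≤ D s t := by
  by_cases h : s ≠ 0 ∨ t ≠ 0
  · exact (hD.pos s t h).le
  · push Not at h
    obtain ⟨rfl, rfl⟩ := h
    have := hD.smul 0 0 0
    simp only [mul_zero, abs_zero, zero_mul] at this
    exact this.ge

/-- Absolute norms are monotone on the quadrant, first coordinate. -/
lemma IsAbsNorm.mono_left (hD : IsAbsNorm D) {s s' : ℝ} (hs : 0 ≤ s) (hss : s ≤ s') (t : ℝ) :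
    D s t ≤ D s' t := by
  rcases (hs.trans hss).eq_or_lt with h | h
  · have h1 : s = 0 := by linarith
    have h2 : s' = 0 := h.symm
    rw [h1, h2]
  · set l := (s' + s) / (2 * s') with hl
    have hl0 : 0 ≤ l := by positivity
    have hl1 : 0 ≤ 1 - l := by
      have : 1 - l = (s' - s) / (2 * s') := by
        rw [hl]
        field_simp
        ring
      rw [this]
      exact div_nonneg (by linarith) (by positivity)
    have e1 : s = l * s' + (1 - l) * (- s') := by
      rw [hl]
      field_simp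
      ring
    have e2 : t = l * t + (1 - l) * t := by ring
    have h3 := hD.add_le (l * s') (l * t) ((1 - l) * (- s')) ((1 - l) * t)
    rw [← e1, ← e2, hD.homog hl0, hD.homog hl1] at h3
    have h4 : D (- s') t = D s' t := by
      rw [hD.abs_eq (- s') t, abs_neg, ← hD.abs_eq s' t]
    rw [h4] at h3
    linarith

/-- Absolute norms are monotone on the quadrant, second coordinate. -/
lemma IsAbsNorm.mono_right (hD : IsAbsNorm D) {t t' : ℝ} (ht : 0 ≤ t) (htt : t ≤ t') (s : ℝ) :
    D s t ≤ D s t' := by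
  rcases (ht.trans htt).eq_or_lt with h | h
  · have h1 : t = 0 := by linarith
    have h2 : t' = 0 := h.symm
    rw [h1, h2]
  · set l := (t' + t) / (2 * t') with hl
    have hl0 : 0 ≤ l := by positivity
    have hl1 : 0 ≤ 1 - l := by
      have : 1 - l = (t' - t) / (2 * t') := by
        rw [hl]
        field_simp
        ring
      rw [this]
      exact div_nonneg (by linarith) (by positivity)
    have e1 : t = l * t' + (1 - l) * (- t') := by
      rw [hl]
      field_simp
      ring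
    have e2 : s = l * s + (1 - l) * s := by ring
    have h3 := hD.add_le (l * s) (l * t') ((1 - l) * s) ((1 - l) * (- t'))
    rw [← e1, ← e2, hD.homog hl0, hD.homog hl1] at h3
    have h4 : D s (- t') = D s t' := by
      rw [hD.abs_eq s (- t'), abs_neg, ← hD.abs_eq s t']
    rw [h4] at h3
    linarith

lemma IsAbsNorm.n_pos (hD : IsAbsNorm D) (v : ℝ) : 0 < D 1 (Real.exp v) :=
  hD.pos _ _ (Or.inl one_ne_zero)

/-- The exponent of the local exponential bound. -/
noncomputable def nodeTheta (D : ℝ → ℝ → ℝ) (b : ℝ → ℝ) (v : ℝ) : ℝ :=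
  b v * Real.exp v / D 1 (Real.exp v)

/-- The weighted arithmetic-geometric mean inequality along a node. -/
lemma node_amgm (hD : IsAbsNorm D) (hN : IsNode D a b) (v w : ℝ) :
    D 1 (Real.exp v) * Real.exp (nodeTheta D b v * (w - v)) ≤ a v + b v * Real.exp w := by
  have hn := hD.n_pos v
  set n := D 1 (Real.exp v) with hnd
  set θ := nodeTheta D b v with hθ
  have e1 : b v * Real.exp v = θ * n := by
    rw [hθ, nodeTheta, ← hnd]
    field_simp
  have e2 : a v = (1 - θ) * n := by
    have := hN.eval v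
    linear_combination this - e1
  have hθ0 : 0 ≤ θ := by
    rw [hθ, nodeTheta]
    exact div_nonneg (mul_nonneg (hN.b_nonneg v) (Real.exp_pos _).le) hn.le
  have hθ1 : 0 ≤ 1 - θ := by
    have : (1 - θ) * n = a v := e2.symm
    have h2 := hN.a_nonneg v
    rw [← this] at h2
    exact nonneg_of_mul_nonneg_left h2 hn
  set t := w - v with ht
  have e3 : b v * Real.exp w = θ * n * Real.exp t := by
    rw [← e1, ht, mul_assoc, ← Real.exp_add]
    congr 2
    ring
  rw [e2, e3]
  -- convexity of the exponential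
  have c1 := Real.add_one_le_exp (- θ * t)
  have c2 := Real.add_one_le_exp ((1 - θ) * t)
  have c3 : Real.exp (θ * t) * Real.exp (- θ * t) = 1 := by
    rw [← Real.exp_add]
    simp
  have c4 : Real.exp (θ * t) * Real.exp ((1 - θ) * t) = Real.exp t := by
    rw [← Real.exp_add]
    congr 1
    ring
  have hE := Real.exp_pos (θ * t)
  have c5 : Real.exp (θ * t) ≤ (1 - θ) + θ * Real.exp t := by
    have t1 := mul_le_mul_of_nonneg_left c1 hθ1
    have t2 := mul_le_mul_of_nonneg_left c2 hθ0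
    have t3 : (1 - θ) * (- θ * t + 1) + θ * ((1 - θ) * t + 1) = 1 := by ring
    have t4 : 1 ≤ (1 - θ) * Real.exp (- θ * t) + θ * Real.exp ((1 - θ) * t) := by linarith
    have t5 := mul_le_mul_of_nonneg_left t4 hE.le
    rw [mul_one] at t5
    calc Real.exp (θ * t) ≤ _ := t5
      _ = (1 - θ) + θ * Real.exp t := by
        rw [← c4, mul_add, ← mul_assoc, mul_comm (Real.exp (θ * t)) (1 - θ), mul_assoc, c3]
        ring
  have := mul_le_mul_of_nonneg_left c5 hn.le
  calc n * Real.exp (θ * t) ≤ n * ((1 - θ) + θ * Real.exp t) := this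
    _ = (1 - θ) * n + θ * n * Real.exp t := by ring

/-- The density of the node measure. -/
noncomputable def nodeF (D : ℝ → ℝ → ℝ) (p q : ℕ) (v : ℝ) : ℝ :=
  Real.exp (q * v) / D 1 (Real.exp v) ^ (p + q)

lemma nodeF_pos (hD : IsAbsNorm D) (p q : ℕ) (v : ℝ) : 0 < nodeF D p q v :=
  div_pos (Real.exp_pos _) (pow_pos (hD.n_pos v) _)

/-- The logarithmic slope of the node density. -/
noncomputable def nodeS (D : ℝ → ℝ → ℝ) (b : ℝ → ℝ) (p q : ℕ) (v : ℝ) : ℝ :=
  ((p + q : ℕ) : ℝ) * nodeTheta D b v - q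

/-- The basic estimate for the density with a general numerator `R` in the denominator. -/
lemma nodeF_step (hD : IsAbsNorm D) (hN : IsNode D a b) (p q : ℕ) (v w : ℝ) {L : ℝ} (hL : 0 < L)
    (hLw : D 1 (Real.exp v) * Real.exp (nodeTheta D b v * (w - v)) ≤ L) :
    Real.exp (q * w) / L ^ (p + q) ≤ nodeF D p q v * Real.exp (- nodeS D b p q v * (w - v)) := by
  have hn := hD.n_pos v
  set n := D 1 (Real.exp v) with hnd
  set θ := nodeTheta D b v with hθ
  set t := w - v with ht
  have hE : 0 < Real.exp (θ * t) := Real.exp_pos _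
  have h1 : (n * Real.exp (θ * t)) ^ (p + q) ≤ L ^ (p + q) :=
    pow_le_pow_left₀ (by positivity) hLw _
  have e1 : Real.exp (θ * t) ^ (p + q) = Real.exp (((p + q : ℕ) : ℝ) * (θ * t)) := by
    rw [Real.exp_nat_mul]
  have h2 : Real.exp (q * w) / L ^ (p + q) ≤ Real.exp (q * w) / (n * Real.exp (θ * t)) ^ (p + q) :=
    div_le_div_of_nonneg_left (Real.exp_pos _).le (by positivity) h1
  refine h2.trans (le_of_eq ?_)
  rw [mul_pow, e1, nodeF, ← hnd]
  have e2 : Real.exp (q * w) = Real.exp (q * v) * Real.exp (q * t) := by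
    rw [← Real.exp_add, ht]
    congr 1
    ring
  have e3 : Real.exp (- nodeS D b p q v * t) * Real.exp (((p + q : ℕ) : ℝ) * (θ * t))
      = Real.exp (q * t) := by
    rw [← Real.exp_add, nodeS, ← hθ]
    congr 1
    ring
  rw [e2, ← e3]
  have := Real.exp_pos (((p + q : ℕ) : ℝ) * (θ * t))
  field_simp

lemma nodeF_le (hD : IsAbsNorm D) (hN : IsNode D a b) (p q : ℕ) (v w : ℝ) :
    nodeF D p q w ≤ nodeF D p q v * Real.exp (- nodeS D b p q v * (w - v)) := by
  refine nodeF_step hD hN p q v w (hD.n_pos w) ?_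
  refine (node_amgm hD hN v w).trans ?_
  have := hN.sub v 1 (Real.exp w) zero_le_one (Real.exp_pos _).le
  simpa using this

/-- Bounds for the node coefficients. -/
lemma node_bounds (hD : IsAbsNorm D) (hN : IsNode D a b) :
    ∃ c A : ℝ, 0 < c ∧ 0 < A ∧ ∀ v, a v ≤ A ∧ b v ≤ A ∧ c ≤ max (a v) (b v) := by
  have c1 := hD.pos 1 0 (Or.inl one_ne_zero)
  have c2 := hD.pos 0 1 (Or.inr one_ne_zero)
  refine ⟨min (D 1 0) (D 0 1) / 2, max (D 1 0) (D 0 1), by positivity, by positivity, fun v => ?_⟩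
  have h1 := hN.sub v 1 0 zero_le_one le_rfl
  have h2 := hN.sub v 0 1 le_rfl zero_le_one
  simp only [mul_one, mul_zero, add_zero, zero_add] at h1 h2
  refine ⟨h1.trans (le_max_left _ _), h2.trans (le_max_right _ _), ?_⟩
  set u := Real.exp v with hu
  have hu0 : 0 < u := Real.exp_pos _
  have h3 : D 1 0 ≤ D 1 u := hD.mono_right le_rfl hu0.le 1
  have h4 : D 0 u ≤ D 1 u := hD.mono_left le_rfl zero_le_one u
  have h5 : D 0 u = u * D 0 1 := by
    have := hD.homog hu0.le 0 1
    simpa using this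
  have h6 := hN.eval v
  rw [← hu] at h6
  set c := min (D 1 0) (D 0 1) with hc
  have hc1 : c ≤ D 1 0 := min_le_left _ _
  have hc2 : c ≤ D 0 1 := min_le_right _ _
  have hcp : 0 < c := lt_min c1 c2
  by_contra hcon
  push Not at hcon
  have ha : a v < c / 2 := lt_of_le_of_lt (le_max_left _ _) hcon
  have hb : b v < c / 2 := lt_of_le_of_lt (le_max_right _ _) hcon
  have hb0 := hN.b_nonneg v
  have h7 : b v * u ≤ c / 2 * u := mul_le_mul_of_nonneg_right hb.le hu0.le
  rcases le_total u 1 with hu1 | hu1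
  · have : c ≤ a v + b v * u := by linarith
    nlinarith
  · have : u * c ≤ a v + b v * u := by nlinarith
    nlinarith

/-- Two-sided bounds for the geometric mean on a compact part of the quadrant. -/
lemma Mh_bounds {P : Set (ℝ × ℝ)} (hP : IsCompact P) (hpos : ∀ u : ℝ × ℝ, u ≠ 0 → 0 < sup2 P u)
    {c A : ℝ} (hc : 0 < c) :
    ∃ m₀ M₀ : ℝ, 0 < m₀ ∧ ∀ x y : ℝ, 0 ≤ x → x ≤ A → 0 ≤ y → y ≤ A → c ≤ max x y →
      m₀ ≤ Mh P x y ∧ Mh P x y ≤ M₀ := by
  set W : Set (ℝ × ℝ) := {z | 0 ≤ z.1 ∧ z.1 ≤ A ∧ 0 ≤ z.2 ∧ z.2 ≤ A ∧ c ≤ max z.1 z.2} with hW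
  have hWc : IsCompact W := by
    apply Metric.isCompact_of_isClosed_isBounded
    · have c1 : Continuous fun z : ℝ × ℝ => z.1 := continuous_fst
      have c2 : Continuous fun z : ℝ × ℝ => z.2 := continuous_snd
      exact (isClosed_le continuous_const c1).inter ((isClosed_le c1 continuous_const).inter
        ((isClosed_le continuous_const c2).inter ((isClosed_le c2 continuous_const).inter
          (isClosed_le continuous_const (c1.max c2)))))
    · apply (Metric.isBounded_Icc ((0 : ℝ), (0 : ℝ)) (A, A)).subset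
      rintro ⟨x, y⟩ ⟨h1, h2, h3, h4, _⟩
      exact ⟨⟨h1, h3⟩, ⟨h2, h4⟩⟩
  have hcont := continuous_Mh hP
  by_cases hne : W.Nonempty
  · obtain ⟨z₀, hz₀, hmin⟩ := hWc.exists_isMinOn hne hcont.continuousOn
    obtain ⟨z₁, hz₁, hmax⟩ := hWc.exists_isMaxOn hne hcont.continuousOn
    refine ⟨Mh P z₀.1 z₀.2, Mh P z₁.1 z₁.2, ?_, ?_⟩
    · obtain ⟨h1, h2, h3, h4, h5⟩ := hz₀
      have hne0 : z₀ ≠ 0 := by
        intro h0
        rw [h0] at h5
        simp only [Prod.fst_zero, Prod.snd_zero, max_self] at h5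
        linarith
      have hne1 : ((z₀.1, - z₀.2) : ℝ × ℝ) ≠ 0 := by
        intro h0
        apply hne0
        have e1 : z₀.1 = 0 := congrArg Prod.fst h0
        have e2 : - z₀.2 = 0 := congrArg Prod.snd h0
        ext
        · simpa using e1
        · simpa using e2
      exact Real.sqrt_pos.2 (mul_pos (hpos _ (by simpa using hne0)) (hpos _ hne1))
    · intro x y h1 h2 h3 h4 h5
      have hxy : (x, y) ∈ W := ⟨h1, h2, h3, h4, h5⟩
      exact ⟨hmin hxy, hmax hxy⟩
  · refine ⟨1, 0, one_pos, ?_⟩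
    intro x y h1 h2 h3 h4 h5
    exact absurd ⟨(x, y), h1, h2, h3, h4, h5⟩ hne

/-- The key bound for the radial measure of a polar body in terms of a node. -/
lemma rad_polar_le {P : Set (ℝ × ℝ)} {N : ℕ} (hN1 : 1 ≤ N) {x y w M L : ℝ} (hx : 0 ≤ x) (hy : 0 ≤ y)
    (hL : 0 < L) (hLe : L ≤ x + y * Real.exp w) (hM : 0 ≤ M) (hMh : Mh P x y = M) :
    rad N {s | ((s, s * Real.exp w) : ℝ × ℝ) ∈ polar2 P} ≤ ENNReal.ofReal ((M / L) ^ N) := by
  have h1 : rad N (Iic (M / L)) = ENNReal.ofReal ((M / L) ^ N) := by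
    rw [rad_Iic hN1, max_eq_left (by positivity)]
  rw [← h1]
  apply measure_mono_ae
  filter_upwards [rad_ae_pos N] with s hs hmem
  have hmem' : ((s, s * Real.exp w) : ℝ × ℝ) ∈ polar2 P := hmem
  have h2 := hmem' x y hx hy
  simp only [abs_of_pos hs, abs_of_pos (mul_pos hs (Real.exp_pos w))] at h2
  rw [hMh] at h2
  have h3 : s * (x + y * Real.exp w) ≤ M := by linarith
  have h4 : s * L ≤ M := (mul_le_mul_of_nonneg_left hLe hs.le).trans h3
  change s ≤ M / L
  rwa [le_div_iff₀ hL]

/-- The bound for the polar body by the node measure. -/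
theorem polar_radial_bound (hD : IsAbsNorm D) (hN : IsNode D a b) {P : Set (ℝ × ℝ)}
    (hP : IsCompact P) (hpos : ∀ u : ℝ × ℝ, u ≠ 0 → 0 < sup2 P u) {p q : ℕ}
    (hp : 1 ≤ p) {Z : ℝ} (hZ : 0 < Z)
    (hZeq : ∫⁻ v, ENNReal.ofReal (nodeF D p q v) = ENNReal.ofReal Z) :
    ∫⁻ v, ENNReal.ofReal (Real.exp (q * v)) * rad (p + q) {s | ((s, s * Real.exp v) : ℝ × ℝ) ∈ polar2 P}
      ≤ ENNReal.ofReal (Z * Real.exp (((p + q : ℕ) : ℝ) *
          ∫ v, Real.log (Mh P (a v) (b v)) ∂(wmeas (nodeF D p q) Z))) := by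
  obtain ⟨c, A, hc, hA, hbd⟩ := node_bounds hD hN
  obtain ⟨m₀, M₀, hm₀, hMb⟩ := Mh_bounds hP hpos (c := c) (A := A) hc
  have hMv : ∀ v, m₀ ≤ Mh P (a v) (b v) ∧ Mh P (a v) (b v) ≤ M₀ := fun v =>
    hMb _ _ (hN.a_nonneg v) (hbd v).1 (hN.b_nonneg v) (hbd v).2.1 (hbd v).2.2
  have hMpos : ∀ v, 0 < Mh P (a v) (b v) := fun v => lt_of_lt_of_le hm₀ (hMv v).1
  have hNN : 1 ≤ p + q := by omega
  set Y : ℝ → ℝ := fun v => ((p + q : ℕ) : ℝ) * Real.log (Mh P (a v) (b v)) with hY
  have hFm : Measurable (nodeF D p q) := by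
    -- measurability of the norm along the curve from the node
    have hn : Measurable fun v => D 1 (Real.exp v) := by
      have : (fun v => D 1 (Real.exp v)) = fun v => a v + b v * Real.exp v := by
        ext v
        exact (hN.eval v).symm
      rw [this]
      exact hN.a_meas.add (hN.b_meas.mul Real.measurable_exp)
    unfold nodeF
    exact (Real.measurable_exp.comp (by fun_prop)).div (hn.pow_const _)
  have hYm : Measurable Y := by
    have hc2 := continuous_Mh hP
    have : Measurable fun v => Mh P (a v) (b v) :=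
      hc2.measurable.comp (hN.a_meas.prodMk hN.b_meas)
    exact (Real.measurable_log.comp this).const_mul _
  have hgm : Measurable fun v => ENNReal.ofReal (Real.exp (q * v))
      * rad (p + q) {s | ((s, s * Real.exp v) : ℝ × ℝ) ∈ polar2 P} := by
    have h1 : Measurable fun v : ℝ => ENNReal.ofReal (Real.exp (q * v)) :=
      ENNReal.measurable_ofReal.comp (by fun_prop)
    have hS : MeasurableSet {z : ℝ × ℝ | ((z.2, z.2 * Real.exp z.1) : ℝ × ℝ) ∈ polar2 P} :=
      (isClosed_polar2.preimage (f := fun z : ℝ × ℝ => (z.2, z.2 * Real.exp z.1))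
        (by fun_prop)).measurableSet
    exact h1.mul (measurable_measure_prodMk_left hS)
  have hYC : ∀ v, |Y v| ≤ ((p + q : ℕ) : ℝ) * max |Real.log m₀| |Real.log M₀| := by
    intro v
    simp only [hY]
    rw [abs_mul, abs_of_nonneg (by positivity)]
    apply mul_le_mul_of_nonneg_left _ (by positivity)
    have h1 := Real.log_le_log hm₀ (hMv v).1
    have h2 := Real.log_le_log (hMpos v) (hMv v).2
    rw [abs_le]
    constructor
    · have := neg_abs_le (Real.log m₀)
      have h3 : |Real.log m₀| ≤ max |Real.log m₀| |Real.log M₀| := le_max_left _ _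
      linarith
    · have := le_abs_self (Real.log M₀)
      have h3 : |Real.log M₀| ≤ max |Real.log m₀| |Real.log M₀| := le_max_right _ _
      linarith
  have key := pl_limit (F := nodeF D p q)
    (g := fun v => ENNReal.ofReal (Real.exp (q * v))
      * rad (p + q) {s | ((s, s * Real.exp v) : ℝ × ℝ) ∈ polar2 P})
    (s := nodeS D b p q) (Y := Y) hFm (nodeF_pos hD p q) hgm hYm hYC
    (fun v w => nodeF_le hD hN p q v w) ?_ hZ hZeq
  · have e : ∫ v, Y v ∂(wmeas (nodeF D p q) Z) = ((p + q : ℕ) : ℝ) *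
        ∫ v, Real.log (Mh P (a v) (b v)) ∂(wmeas (nodeF D p q) Z) := integral_const_mul _ _
    rwa [e] at key
  -- the second hypothesis
  intro v w
  set n := D 1 (Real.exp v) with hn
  have hn0 : 0 < n := hD.n_pos v
  set L := n * Real.exp (nodeTheta D b v * (w - v)) with hL
  have hL0 : 0 < L := mul_pos hn0 (Real.exp_pos _)
  have hLe : L ≤ a v + b v * Real.exp w := node_amgm hD hN v w
  have hM := hMpos v
  have h1 := rad_polar_le (P := P) hNN (hN.a_nonneg v) (hN.b_nonneg v) hL0 hLe hM.le rfl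
  calc ENNReal.ofReal (Real.exp (q * w))
        * rad (p + q) {s | ((s, s * Real.exp w) : ℝ × ℝ) ∈ polar2 P}
      ≤ ENNReal.ofReal (Real.exp (q * w)) * ENNReal.ofReal ((Mh P (a v) (b v) / L) ^ (p + q)) := by
        gcongr
    _ = ENNReal.ofReal (Real.exp (q * w) * (Mh P (a v) (b v) / L) ^ (p + q)) :=
        (ENNReal.ofReal_mul (Real.exp_pos _).le).symm
    _ ≤ _ := by
        apply ENNReal.ofReal_le_ofReal
        have h2 := nodeF_step hD hN p q v w hL0 le_rfl
        have e1 : Real.exp (q * w) * (Mh P (a v) (b v) / L) ^ (p + q)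
            = (Real.exp (q * w) / L ^ (p + q)) * Mh P (a v) (b v) ^ (p + q) := by
          rw [div_pow]
          field_simp
        have e2 : Real.exp (- nodeS D b p q v * (w - v) + Y v)
            = Real.exp (- nodeS D b p q v * (w - v)) * Mh P (a v) (b v) ^ (p + q) := by
          rw [Real.exp_add, hY]
          simp only
          rw [Real.exp_nat_mul, Real.exp_log hM]
        rw [e1, e2, ← mul_assoc]
        exact mul_le_mul_of_nonneg_right h2 (by positivity)

end Vale.Agent.Lib.P227G
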