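import Mathlib
import Vale.Agent.Lib.P227G.PlanarLM

/-!
# The volume of the grid set of a polar body, and the planar volume bound
-/

open MeasureTheory Set Filter Topology
open scoped ENNReal

namespace Vale.Agent.Lib.P227G

variable {κ : Type*} [Fintype κ] [Nonempty κ]

lemma exists_abs_eq_norm (ρ : κ → ℝ) : ∃ k, ‖ρ‖ = |ρ k| := by
  obtain ⟨k, hk⟩ := Finite.exists_max fun k => |ρ k|
  refine ⟨k, le_antisymm ?_ ?_⟩
  · rw [pi_norm_le_iff_of_nonneg (abs_nonneg _)]
    intro i
    simpa using hk i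
  · have := norm_le_pi_norm ρ k
    simpa using this

/-- The law of the sup norm. -/
lemma map_norm_volume : Measure.map (fun x : κ → ℝ => ‖x‖) volume
    = ENNReal.ofReal (2 ^ Fintype.card κ) • rad (Fintype.card κ) := by
  have hNm : Measurable fun x : κ → ℝ => ‖x‖ := measurable_norm
  have hset : {x : κ → ℝ | ‖x‖ ≤ 1} = Metric.closedBall 0 1 := by
    ext x
    simp
  have hvol : volume {x : κ → ℝ | ‖x‖ ≤ 1} = ENNReal.ofReal (2 ^ Fintype.card κ) := by
    rw [hset, Real.volume_pi_closedBall _ zero_le_one]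
    simp
  have h := map_restrict_radial (N := fun x : κ → ℝ => ‖x‖) hNm
    (fun c hc x => by rw [norm_smul, Real.norm_eq_abs, abs_of_pos hc])
    (fun x hx => norm_le_zero_iff.1 hx)
    (by rw [hvol]; exact ENNReal.ofReal_ne_top)
    (B := univ) MeasurableSet.univ (fun _ _ _ => by simp)
  rw [Measure.restrict_univ, univ_inter, hvol] at h
  exact h

variable {κ' : Type*} [Fintype κ'] [Nonempty κ']

/-- The grid set of a polar body in terms of the sup norms. -/
lemma Zset_polar (P : Set (ℝ × ℝ)) :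
    Zset κ κ' (polar2 P)
      = Prod.map (fun x : κ → ℝ => ‖x‖) (fun x : κ' → ℝ => ‖x‖) ⁻¹' polar2 P := by
  ext ⟨ρ, t⟩
  simp only [Zset, mem_ofPred_eq, mem_preimage, Prod.map_apply]
  constructor
  · intro h
    obtain ⟨k, hk⟩ := exists_abs_eq_norm ρ
    obtain ⟨l, hl⟩ := exists_abs_eq_norm t
    refine polar2_mono (h k l) ?_ ?_
    · simp only
      rw [abs_of_nonneg (norm_nonneg _), hk]
    · simp only
      rw [abs_of_nonneg (norm_nonneg _), hl]
  · intro h k l
    refine polar2_mono h ?_ ?_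
    · simp only
      rw [abs_of_nonneg (norm_nonneg _)]
      exact norm_le_pi_norm ρ k
    · simp only
      rw [abs_of_nonneg (norm_nonneg _)]
      exact norm_le_pi_norm t l

/-- The volume of the grid set of a polar body. -/
theorem volume_Zset_polar (P : Set (ℝ × ℝ)) :
    volume (Zset κ κ' (polar2 P))
      = ENNReal.ofReal (2 ^ (Fintype.card κ + Fintype.card κ')
          * ((Fintype.card κ : ℝ) * Fintype.card κ' / (Fintype.card κ + Fintype.card κ'))) *
        ∫⁻ v, ENNReal.ofReal (Real.exp (Fintype.card κ' * v))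
          * rad (Fintype.card κ + Fintype.card κ') {s | ((s, s * Real.exp v) : ℝ × ℝ) ∈ polar2 P} := by
  set p := Fintype.card κ with hp
  set q := Fintype.card κ' with hq
  have hp1 : 1 ≤ p := Fintype.card_pos
  have hq1 : 1 ≤ q := Fintype.card_pos
  have hC : MeasurableSet (polar2 P) := isClosed_polar2.measurableSet
  have hfm : Measurable (Prod.map (fun x : κ → ℝ => ‖x‖) (fun x : κ' → ℝ => ‖x‖)) :=
    measurable_norm.prodMap measurable_norm
  rw [Zset_polar, Measure.volume_eq_prod, ← Measure.map_apply hfm hC, ← Measure.map_prod_map _ _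
    measurable_norm measurable_norm, map_norm_volume, map_norm_volume]
  set F : ℝ × ℝ → ℝ≥0∞ := (polar2 P).indicator 1 with hF
  have hFm : Measurable F := measurable_one.indicator hC
  have h1 : ((ENNReal.ofReal (2 ^ p) • rad p).prod (ENNReal.ofReal (2 ^ q) • rad q)) (polar2 P)
      = ENNReal.ofReal (2 ^ p) * (ENNReal.ofReal (2 ^ q) * ∫⁻ s, ∫⁻ t, F (s, t) ∂(rad q) ∂(rad p)) := by
    rw [← lintegral_indicator_one hC, lintegral_prod _ hFm.aemeasurable, lintegral_smul_measure]
    simp only [smul_eq_mul]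
    congr 1
    simp_rw [lintegral_smul_measure, smul_eq_mul]
    rw [lintegral_const_mul]
    exact hFm.lintegral_prod_right' (ν := rad q)
  rw [h1, lintegral_rad_slope hp1 hq1 hFm]
  have h2 : ∀ v : ℝ, ∫⁻ s, F (s, s * Real.exp v) ∂(rad (p + q))
      = rad (p + q) {s | ((s, s * Real.exp v) : ℝ × ℝ) ∈ polar2 P} := by
    intro v
    have hm : MeasurableSet {s : ℝ | ((s, s * Real.exp v) : ℝ × ℝ) ∈ polar2 P} :=
      (isClosed_polar2.preimage (f := fun s : ℝ => (s, s * Real.exp v)) (by fun_prop)).measurableSet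
    rw [← lintegral_indicator_one hm]
    refine lintegral_congr fun s => ?_
    simp only [hF, indicator, mem_ofPred_eq, Pi.one_apply]
  simp_rw [h2]
  rw [← mul_assoc, ← mul_assoc]
  congr 1
  rw [← ENNReal.ofReal_mul (by positivity), ← ENNReal.ofReal_mul (by positivity), pow_add]

/-- The planar volume bound for a grid set. -/
theorem volume_Zset_bound {D : ℝ → ℝ → ℝ} {a b : ℝ → ℝ} (hD : IsAbsNorm D) (hN : IsNode D a b)
    {P : Set (ℝ × ℝ)} (hP : IsCompact P) (hconv : Convex ℝ P) (hsym : ∀ x ∈ P, -x ∈ P)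
    (hpos : ∀ u : ℝ × ℝ, u ≠ 0 → 0 < sup2 P u) {Z : ℝ} (hZ : 0 < Z)
    (hZeq : ∫⁻ v, ENNReal.ofReal (nodeF D (Fintype.card κ) (Fintype.card κ') v) = ENNReal.ofReal Z) :
    volume (Zset κ κ' P) ≤ ENNReal.ofReal
      (2 ^ (Fintype.card κ + Fintype.card κ')
          * ((Fintype.card κ : ℝ) * Fintype.card κ' / (Fintype.card κ + Fintype.card κ'))
          * (Z * Real.exp (((Fintype.card κ + Fintype.card κ' : ℕ) : ℝ) *
              ∫ v, Real.log (Mh P (a v) (b v))
                ∂(wmeas (nodeF D (Fintype.card κ) (Fintype.card κ')) Z)))) := by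
  have hp1 : 1 ≤ Fintype.card κ := Fintype.card_pos
  refine (volume_Zset_le hP hconv hsym).trans ?_
  rw [volume_Zset_polar]
  calc _ ≤ _ := mul_le_mul' le_rfl (polar_radial_bound hD hN hP hpos hp1 hZ hZeq)
    _ = _ := (ENNReal.ofReal_mul (by positivity)).symm

end Vale.Agent.Lib.P227G
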