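import Mathlib
import Vale.Agent.Lib.P227G.Fiber
import Vale.Agent.Lib.P227G.PolarZ

/-!
# Geometry of a convex body in split coordinates
-/

open MeasureTheory Set Filter Topology
open scoped ENNReal

namespace Vale.Agent.Lib.P227G

section cube

variable {κ : Type*} [Fintype κ] [Nonempty κ]

/-- The volume of a cube with prescribed edge set. -/
lemma cube_volume {I : Set ℝ} (hI : IsCompact I) (hc : Convex ℝ I) :
    volume {ρ : κ → ℝ | ∀ k, ρ k ∈ I} = ENNReal.ofReal ((sSup I - sInf I) ^ Fintype.card κ) := by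
  rcases I.eq_empty_or_nonempty with rfl | hne
  · have : {ρ : κ → ℝ | ∀ k, ρ k ∈ (∅ : Set ℝ)} = ∅ := by
      ext ρ
      simp
    rw [this]
    simp [Fintype.card_ne_zero]
  · have hsup := hI.sSup_mem hne
    have hinf := hI.sInf_mem hne
    have hbdd := hI.bddAbove
    have hbdb := hI.bddBelow
    have hle : sInf I ≤ sSup I := (csInf_le hbdb hsup)
    have : {ρ : κ → ℝ | ∀ k, ρ k ∈ I} = Icc (fun _ => sInf I) (fun _ => sSup I) := by
      ext ρ
      simp only [mem_ofPred_eq, mem_Icc, Pi.le_def]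
      constructor
      · intro h
        exact ⟨fun k => csInf_le hbdb (h k), fun k => le_csSup hbdd (h k)⟩
      · rintro ⟨h1, h2⟩ k
        exact hc.ordConnected.out hinf hsup ⟨h1 k, h2 k⟩
    rw [this, Real.volume_Icc_pi]
    simp only [Finset.prod_const, Finset.card_univ]
    rw [ENNReal.ofReal_pow (by linarith)]

end cube

section width

variable {ι : Type*} [Fintype ι]

/-- The length of the interval of values of a linear form on a set. -/
lemma len_image_eq (M : Set (ι → ℝ)) (u : ι → ℝ) :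
    sSup ((fun x => dotProduct x u) '' M) - sInf ((fun x => dotProduct x u) '' M) = 2 * wid M u := by
  have e : - ((fun x => dotProduct x u) '' M) = (fun x => dotProduct x (-u)) '' M := by
    ext y
    simp only [Set.mem_neg, mem_image]
    constructor
    · rintro ⟨x, hx, h⟩
      exact ⟨x, hx, by rw [dot_neg', h, neg_neg]⟩
    · rintro ⟨x, hx, rfl⟩
      exact ⟨x, hx, by rw [dot_neg', neg_neg]⟩
  rw [Real.sInf_def, e]
  simp only [wid, supp]
  ring

end width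

section split

variable {ι₁ ι₂ : Type*} [Fintype ι₁] [Fintype ι₂]

lemma dot_elim (x₁ w₁ : ι₁ → ℝ) (x₂ w₂ : ι₂ → ℝ) :
    dotProduct (Sum.elim x₁ x₂ : ι₁ ⊕ ι₂ → ℝ) (Sum.elim w₁ w₂)
      = dotProduct x₁ w₁ + dotProduct x₂ w₂ := by
  simp [dotProduct, Fintype.sum_sum_type]

/-- A subset of `ι₁ ⊕ ι₂ → ℝ` in split coordinates. -/
def splitB (L : Set (ι₁ ⊕ ι₂ → ℝ)) : Set ((ι₁ → ℝ) × (ι₂ → ℝ)) := {z | Sum.elim z.1 z.2 ∈ L}

variable {L : Set (ι₁ ⊕ ι₂ → ℝ)}

lemma splitB_eq_image (L : Set (ι₁ ⊕ ι₂ → ℝ)) :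
    splitB L = (fun x : ι₁ ⊕ ι₂ → ℝ => (fun i => x (Sum.inl i), fun i => x (Sum.inr i))) '' L := by
  ext ⟨a, b⟩
  constructor
  · intro h
    exact ⟨_, h, rfl⟩
  · rintro ⟨x, hx, h⟩
    have h1 : a = fun i => x (Sum.inl i) := (congrArg Prod.fst h).symm
    have h2 : b = fun i => x (Sum.inr i) := (congrArg Prod.snd h).symm
    have : Sum.elim a b = x := by
      ext i
      cases i <;> simp [h1, h2]
    change Sum.elim a b ∈ L
    rwa [this]

lemma splitB_compact (hL : IsCompact L) : IsCompact (splitB L) := by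
  rw [splitB_eq_image]
  exact hL.image (by fun_prop)

lemma elim_add_smul (s t : ℝ) (x y : (ι₁ → ℝ) × (ι₂ → ℝ)) :
    (Sum.elim (s • x + t • y).1 (s • x + t • y).2 : ι₁ ⊕ ι₂ → ℝ)
      = s • Sum.elim x.1 x.2 + t • Sum.elim y.1 y.2 := by
  ext i
  cases i <;> simp

lemma splitB_convex (hL : Convex ℝ L) : Convex ℝ (splitB L) := by
  intro x hx y hy s t hs ht hst
  change Sum.elim (s • x + t • y).1 (s • x + t • y).2 ∈ L
  rw [elim_add_smul]
  exact hL hx hy hs ht hst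

lemma elim_neg (x : ι₁ → ℝ) (y : ι₂ → ℝ) :
    (Sum.elim (-x) (-y) : ι₁ ⊕ ι₂ → ℝ) = - Sum.elim x y := by
  ext i
  cases i <;> simp

lemma splitB_symm (hL : ∀ x ∈ L, -x ∈ L) {z : (ι₁ → ℝ) × (ι₂ → ℝ)} (hz : z ∈ splitB L) :
    -z ∈ splitB L := by
  change Sum.elim (-z).1 (-z).2 ∈ L
  simp only [Prod.fst_neg, Prod.snd_neg]
  rw [elim_neg]
  exact hL _ hz

lemma volume_splitB (hL : MeasurableSet L) : volume (splitB L) = volume L := by
  have mp := volume_measurePreserving_sumPiEquivProdPi_symm (fun _ : ι₁ ⊕ ι₂ => ℝ)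
  have := mp.measure_preimage hL.nullMeasurableSet
  rw [Measure.volume_eq_prod, ← this]
  congr 1

/-- The planar image of a body. -/
def planar (L : Set (ι₁ ⊕ ι₂ → ℝ)) (u₁ : ι₁ → ℝ) (u₂ : ι₂ → ℝ) : Set (ℝ × ℝ) :=
  (fun z : (ι₁ → ℝ) × (ι₂ → ℝ) => (dotProduct z.1 u₁, dotProduct z.2 u₂)) '' splitB L

lemma continuous_planar_map (u₁ : ι₁ → ℝ) (u₂ : ι₂ → ℝ) :
    Continuous fun z : (ι₁ → ℝ) × (ι₂ → ℝ) => (dotProduct z.1 u₁, dotProduct z.2 u₂) :=
  ((continuous_dot_left u₁).comp continuous_fst).prodMk ((continuous_dot_left u₂).comp continuous_snd)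

lemma planar_compact (hL : IsCompact L) (u₁ : ι₁ → ℝ) (u₂ : ι₂ → ℝ) : IsCompact (planar L u₁ u₂) :=
  (splitB_compact hL).image (continuous_planar_map u₁ u₂)

lemma planar_convex (hL : Convex ℝ L) (u₁ : ι₁ → ℝ) (u₂ : ι₂ → ℝ) : Convex ℝ (planar L u₁ u₂) := by
  rintro _ ⟨x, hx, rfl⟩ _ ⟨y, hy, rfl⟩ s t hs ht hst
  refine ⟨s • x + t • y, splitB_convex hL hx hy hs ht hst, ?_⟩
  ext
  · simp [add_dotProduct, smul_dotProduct]
  · simp [add_dotProduct, smul_dotProduct]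

lemma planar_symm (hL : ∀ x ∈ L, -x ∈ L) (u₁ : ι₁ → ℝ) (u₂ : ι₂ → ℝ) {x : ℝ × ℝ}
    (hx : x ∈ planar L u₁ u₂) : -x ∈ planar L u₁ u₂ := by
  obtain ⟨z, hz, rfl⟩ := hx
  refine ⟨-z, splitB_symm hL hz, ?_⟩
  ext
  · simp [neg_dot']
  · simp [neg_dot']

lemma dt_planar (z : (ι₁ → ℝ) × (ι₂ → ℝ)) (u₁ : ι₁ → ℝ) (u₂ : ι₂ → ℝ) (a b : ℝ) :
    dt (dotProduct z.1 u₁, dotProduct z.2 u₂) (a, b)
      = dotProduct (Sum.elim z.1 z.2 : ι₁ ⊕ ι₂ → ℝ) (Sum.elim (a • u₁) (b • u₂)) := by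
  rw [dot_elim, dotProduct_smul, dotProduct_smul]
  simp only [dt, smul_eq_mul]
  ring

/-- The support function of the planar image. -/
lemma sup2_planar (L : Set (ι₁ ⊕ ι₂ → ℝ)) (u₁ : ι₁ → ℝ) (u₂ : ι₂ → ℝ) (a b : ℝ) :
    sup2 (planar L u₁ u₂) (a, b) = supp L (Sum.elim (a • u₁) (b • u₂)) := by
  unfold sup2 supp
  congr 1
  ext y
  simp only [mem_image]
  constructor
  · rintro ⟨_, ⟨z, hz, rfl⟩, rfl⟩
    exact ⟨_, hz, (dt_planar z u₁ u₂ a b).symm⟩
  · rintro ⟨x, hx, rfl⟩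
    refine ⟨_, ⟨(fun i => x (Sum.inl i), fun i => x (Sum.inr i)), ?_, rfl⟩, ?_⟩
    · rw [splitB_eq_image]
      exact ⟨x, hx, rfl⟩
    · rw [dt_planar]
      congr 1
      ext i
      cases i <;> simp

/-- The intermediate grid set of a body: the first block is replaced by a cube of values. -/
def Zp (L : Set (ι₁ ⊕ ι₂ → ℝ)) (u₁ : ι₁ → ℝ) : Set ((ι₁ → ℝ) × (ι₂ → ℝ)) :=
  {z | ∀ k, ∃ x₁, (x₁, z.2) ∈ splitB L ∧ dotProduct x₁ u₁ = z.1 k}

lemma Zp_convex (hL : Convex ℝ L) (u₁ : ι₁ → ℝ) : Convex ℝ (Zp L u₁) := by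
  intro x hx y hy s t hs ht hst k
  obtain ⟨a, ha, ha'⟩ := hx k
  obtain ⟨b, hb, hb'⟩ := hy k
  refine ⟨s • a + t • b, ?_, ?_⟩
  · have := splitB_convex hL ha hb hs ht hst
    simpa using this
  · simp [add_dotProduct, smul_dotProduct, ha', hb']

lemma Zp_compact [Nonempty ι₁] (hL : IsCompact L) (u₁ : ι₁ → ℝ) : IsCompact (Zp L u₁) := by
  set Ms : Set (ℝ × (ι₂ → ℝ)) :=
    (fun z : (ι₁ → ℝ) × (ι₂ → ℝ) => (dotProduct z.1 u₁, z.2)) '' splitB L with hMs
  have hMc : IsCompact Ms :=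
    (splitB_compact hL).image (((continuous_dot_left u₁).comp continuous_fst).prodMk continuous_snd)
  have heq : Zp L u₁ = ⋂ k, (fun z : (ι₁ → ℝ) × (ι₂ → ℝ) => (z.1 k, z.2)) ⁻¹' Ms := by
    ext z
    simp only [Zp, mem_ofPred_eq, mem_iInter, mem_preimage, hMs, mem_image]
    refine forall_congr' fun k => ?_
    constructor
    · rintro ⟨x₁, h1, h2⟩
      exact ⟨(x₁, z.2), h1, by rw [h2]⟩
    · rintro ⟨⟨x₁, x₂⟩, h1, h2⟩
      have e1 : dotProduct x₁ u₁ = z.1 k := congrArg Prod.fst h2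
      have e2 : x₂ = z.2 := congrArg Prod.snd h2
      subst e2
      exact ⟨x₁, h1, e1⟩
  have hcl : IsClosed (Zp L u₁) := by
    rw [heq]
    exact isClosed_iInter fun k => hMc.isClosed.preimage (by fun_prop)
  obtain ⟨R, hR⟩ := hMc.isBounded.exists_norm_le
  apply Metric.isCompact_of_isClosed_isBounded hcl
  apply (Metric.isBounded_closedBall (x := (0 : (ι₁ → ℝ) × (ι₂ → ℝ))) (r := max R 0)).subset
  intro z hz
  rw [heq] at hz
  have hz' : ∀ k, (z.1 k, z.2) ∈ Ms := fun k => mem_iInter.1 hz k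
  rw [mem_closedBall_zero_iff, Prod.norm_def]
  apply max_le
  · rw [pi_norm_le_iff_of_nonneg (le_max_right _ _)]
    intro k
    have := hR _ (hz' k)
    rw [Prod.norm_def] at this
    exact ((le_max_left _ _).trans this).trans (le_max_left _ _)
  · obtain ⟨k⟩ := ‹Nonempty ι₁›
    have := hR _ (hz' k)
    rw [Prod.norm_def] at this
    exact ((le_max_right _ _).trans this).trans (le_max_left _ _)

/-- The body with the two blocks interchanged. -/
def swapB (L : Set (ι₁ ⊕ ι₂ → ℝ)) : Set ((ι₂ → ℝ) × (ι₁ → ℝ)) := Prod.swap ⁻¹' splitB L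

lemma swapB_compact (hL : IsCompact L) : IsCompact (swapB L) := by
  have : swapB L = Prod.swap '' splitB L := by
    ext z
    simp [swapB, mem_image, Prod.exists]
    constructor
    · intro h
      exact ⟨z.2, z.1, h, rfl⟩
    · rintro ⟨a, b, h, rfl⟩
      exact h
  rw [this]
  exact (splitB_compact hL).image continuous_swap

lemma swapB_convex (hL : Convex ℝ L) : Convex ℝ (swapB L) := by
  intro x hx y hy s t hs ht hst
  have := splitB_convex hL hx hy hs ht hst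
  exact this

lemma volume_swapB (hL : IsCompact L) : volume (swapB L) = volume L := by
  rw [← volume_splitB hL.isClosed.measurableSet]
  have mp : MeasurePreserving (Prod.swap : (ι₂ → ℝ) × (ι₁ → ℝ) → (ι₁ → ℝ) × (ι₂ → ℝ))
      (volume.prod volume) (volume.prod volume) := Measure.measurePreserving_swap
  exact mp.measure_preimage (splitB_compact hL).isClosed.measurableSet.nullMeasurableSet

/-- The first fiber integral. -/
lemma lintegral_wid_swapB [Nonempty ι₁] (hL : IsCompact L) (hconv : Convex ℝ L) (u₁ : ι₁ → ℝ) :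
    ∫⁻ τ, ENNReal.ofReal (wid (slice (swapB L) τ) u₁ ^ Fintype.card ι₁)
      = ENNReal.ofReal (1 / 2 ^ Fintype.card ι₁) * volume (Zp L u₁) := by
  have hZm : MeasurableSet (Zp L u₁) := (Zp_compact hL u₁).isClosed.measurableSet
  rw [Measure.volume_eq_prod, Measure.prod_apply_symm hZm, ← lintegral_const_mul' _ _ ENNReal.ofReal_ne_top]
  refine lintegral_congr fun τ => ?_
  set M := slice (swapB L) τ with hM
  have hMc : IsCompact M := slice_compact (swapB_compact hL) τ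
  have hMconv : Convex ℝ M := slice_convex (swapB_convex hconv) τ
  set I := (fun x => dotProduct x u₁) '' M with hI
  have hIc : IsCompact I := hMc.image (continuous_dot_left u₁)
  have hIconv : Convex ℝ I := by
    rintro _ ⟨x, hx, rfl⟩ _ ⟨y, hy, rfl⟩ s t hs ht hst
    exact ⟨s • x + t • y, hMconv hx hy hs ht hst, by simp [add_dotProduct, smul_dotProduct]⟩
  have hset : (fun ρ : ι₁ → ℝ => (ρ, τ)) ⁻¹' Zp L u₁ = {ρ : ι₁ → ℝ | ∀ k, ρ k ∈ I} := by
    ext ρ
    simp only [mem_preimage, Zp, mem_ofPred_eq, hI, mem_image]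
    rfl
  rw [hset, cube_volume hIc hIconv, len_image_eq, ← ENNReal.ofReal_mul (by positivity)]
  congr 1
  rw [mul_pow]
  field_simp

/-- The set of heights over a cube of abscissae. -/
def Jset (P : Set (ℝ × ℝ)) {κ : Type*} (ρ : κ → ℝ) : Set ℝ := {t | ∀ k, (ρ k, t) ∈ P}

lemma Jset_convex {P : Set (ℝ × ℝ)} (hP : Convex ℝ P) {κ : Type*} (ρ : κ → ℝ) :
    Convex ℝ (Jset P ρ) := by
  intro a ha b hb s t hs ht hst k
  have := hP (ha k) (hb k) hs ht hst
  simpa [← add_mul, hst] using this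

lemma Jset_compact {P : Set (ℝ × ℝ)} (hP : IsCompact P) {κ : Type*} [Nonempty κ] (ρ : κ → ℝ) :
    IsCompact (Jset P ρ) := by
  obtain ⟨k⟩ := ‹Nonempty κ›
  have hcl : IsClosed (Jset P ρ) := by
    have : Jset P ρ = ⋂ k, (fun t => (ρ k, t)) ⁻¹' P := by
      ext t
      simp [Jset]
    rw [this]
    exact isClosed_iInter fun k => hP.isClosed.preimage (by fun_prop)
  refine (hP.image continuous_snd).of_isClosed_subset hcl ?_
  intro t ht
  exact ⟨(ρ k, t), ht k, rfl⟩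

/-- The width of a slice of the intermediate set is controlled by the planar image. -/
lemma wid_slice_Zp_le [Nonempty ι₁] (hL : IsCompact L) (hconv : Convex ℝ L) (u₁ : ι₁ → ℝ)
    (u₂ : ι₂ → ℝ) (ρ : ι₁ → ℝ) :
    wid (slice (Zp L u₁) ρ) u₂
      ≤ (sSup (Jset (planar L u₁ u₂) ρ) - sInf (Jset (planar L u₁ u₂) ρ)) / 2 := by
  set P := planar L u₁ u₂ with hP
  have hPc : IsCompact P := planar_compact hL u₁ u₂
  set J := Jset P ρ with hJ
  have hJc : IsCompact J := Jset_compact hPc ρ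
  set M := slice (Zp L u₁) ρ with hM
  have hMc : IsCompact M := slice_compact (Zp_compact hL u₁) ρ
  have hmem : ∀ τ ∈ M, dotProduct τ u₂ ∈ J := by
    intro τ hτ k
    obtain ⟨x₁, h1, h2⟩ := hτ k
    refine ⟨(x₁, τ), h1, ?_⟩
    simp only
    rw [h2]
  rcases M.eq_empty_or_nonempty with hemp | hne
  · rw [hemp]
    simp only [wid, supp_empty]
    rcases J.eq_empty_or_nonempty with hJe | hJne
    · rw [hJe]
      simp
    · obtain ⟨t, ht⟩ := hJne
      have h1 := le_csSup hJc.bddAbove ht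
      have h2 := csInf_le hJc.bddBelow ht
      linarith
  · obtain ⟨τ₁, h1, h2⟩ := exists_supp hMc hne u₂
    obtain ⟨τ₂, h3, h4⟩ := exists_supp hMc hne (-u₂)
    have h5 := le_csSup hJc.bddAbove (hmem τ₁ h1)
    have h6 := csInf_le hJc.bddBelow (hmem τ₂ h3)
    rw [dot_neg'] at h4
    simp only [wid]
    rw [← h2, ← h4]
    linarith

/-- The second fiber integral. -/
lemma lintegral_wid_Zp_le [Nonempty ι₁] [Nonempty ι₂] (hL : IsCompact L) (hconv : Convex ℝ L)
    (u₁ : ι₁ → ℝ) (u₂ : ι₂ → ℝ) :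
    ∫⁻ ρ, ENNReal.ofReal (wid (slice (Zp L u₁) ρ) u₂ ^ Fintype.card ι₂)
      ≤ ENNReal.ofReal (1 / 2 ^ Fintype.card ι₂) * volume (Zset ι₁ ι₂ (planar L u₁ u₂)) := by
  set P := planar L u₁ u₂ with hP
  have hPc : IsCompact P := planar_compact hL u₁ u₂
  have hPconv : Convex ℝ P := planar_convex hconv u₁ u₂
  have hZm : MeasurableSet (Zset ι₁ ι₂ P) := (isClosed_Zset hPc.isClosed).measurableSet
  rw [Measure.volume_eq_prod, Measure.prod_apply hZm, ← lintegral_const_mul' _ _ ENNReal.ofReal_ne_top]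
  refine lintegral_mono fun ρ => ?_
  have hJc := Jset_compact hPc ρ
  have hJconv := Jset_convex hPconv ρ
  have hset : Prod.mk ρ ⁻¹' Zset ι₁ ι₂ P = {t : ι₂ → ℝ | ∀ l, t l ∈ Jset P ρ} := by
    ext t
    simp only [mem_preimage, Zset, mem_ofPred_eq, Jset]
    constructor
    · intro h l k
      exact h k l
    · intro h k l
      exact h l k
  rw [hset, cube_volume hJc hJconv, ← ENNReal.ofReal_mul (by positivity)]
  apply ENNReal.ofReal_le_ofReal
  have h1 := wid_slice_Zp_le hL hconv u₁ u₂ ρ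
  have h2 := wid_nonneg (slice_compact (Zp_compact hL u₁) ρ) u₂
  have h3 := pow_le_pow_left₀ h2 h1 (Fintype.card ι₂)
  refine h3.trans (le_of_eq ?_)
  rw [div_pow]
  field_simp
  rfl

end split

end Vale.Agent.Lib.P227G
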