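import Mathlib
import Vale.Agent.Lib.P227G.Split

/-!
# The recursion: a logarithmic Minkowski inequality for the combined directions
-/

open MeasureTheory Set Filter Topology
open scoped ENNReal

namespace Vale.Agent.Lib.P227G

variable {ι₁ ι₂ : Type*} [Fintype ι₁] [Fintype ι₂]

/-- The combined direction map. -/
noncomputable def gam (a b : ℝ → ℝ) (z : ((ι₁ → ℝ) × (ι₂ → ℝ)) × ℝ) : ι₁ ⊕ ι₂ → ℝ :=
  Sum.elim (a z.2 • z.1.1) (b z.2 • z.1.2)

/-- The logarithm of the support function along the combined directions. -/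
noncomputable def Lam (L : Set (ι₁ ⊕ ι₂ → ℝ)) (a b : ℝ → ℝ) (z : ((ι₁ → ℝ) × (ι₂ → ℝ)) × ℝ) : ℝ :=
  Real.log (supp L (gam a b z))

lemma measurable_gam {a b : ℝ → ℝ} (ha : Measurable a) (hb : Measurable b) :
    Measurable (gam (ι₁ := ι₁) (ι₂ := ι₂) a b) := by
  refine measurable_pi_iff.2 ?_
  rintro (i | i)
  · simp only [gam, Sum.elim_inl, Pi.smul_apply, smul_eq_mul]
    exact (ha.comp measurable_snd).mul ((measurable_pi_apply i).comp
      (measurable_fst.comp measurable_fst))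
  · simp only [gam, Sum.elim_inr, Pi.smul_apply, smul_eq_mul]
    exact (hb.comp measurable_snd).mul ((measurable_pi_apply i).comp
      (measurable_snd.comp measurable_fst))

lemma measurable_Lam {L : Set (ι₁ ⊕ ι₂ → ℝ)} (hL : IsCompact L) {a b : ℝ → ℝ} (ha : Measurable a)
    (hb : Measurable b) : Measurable (Lam L a b) :=
  Real.measurable_log.comp ((continuous_supp hL).measurable.comp (measurable_gam ha hb))

section body

variable {ι : Type*} [Fintype ι] [Nonempty ι] {L : Set (ι → ℝ)}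

/-- A symmetric convex body contains a ball around the origin. -/
lemma IsSymBody.exists_ball (hL : IsSymBody L) : ∃ ε : ℝ, 0 < ε ∧ Metric.closedBall 0 ε ⊆ L := by
  obtain ⟨x₀, hx₀⟩ := hL.interior
  obtain ⟨ε, hε, hb⟩ := Metric.isOpen_iff.1 isOpen_interior x₀ hx₀
  refine ⟨ε / 2, by positivity, ?_⟩
  intro z hz
  have hz' : ‖z‖ ≤ ε / 2 := by simpa using hz
  have h1 : x₀ + z ∈ L := by
    apply interior_subset (hb _)
    rw [mem_ball_iff_norm]
    simp only [add_sub_cancel_left]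
    linarith
  have h2 : x₀ - z ∈ L := by
    apply interior_subset (hb _)
    rw [mem_ball_iff_norm]
    have : x₀ - z - x₀ = - z := by abel
    rw [this, norm_neg]
    linarith
  have h3 := hL.symm _ h2
  have h4 := hL.convex h1 h3 (show (0 : ℝ) ≤ 1 / 2 by norm_num) (show (0 : ℝ) ≤ 1 / 2 by norm_num)
    (by norm_num)
  convert h4 using 1
  ext i
  simp only [Pi.add_apply, Pi.smul_apply, Pi.neg_apply, Pi.sub_apply, smul_eq_mul]
  ring

/-- Two-sided bounds for the support function of a symmetric convex body. -/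
lemma IsSymBody.supp_bounds (hL : IsSymBody L) :
    ∃ ε R : ℝ, 0 < ε ∧ 0 ≤ R ∧ ∀ w, ε * ‖w‖ ≤ supp L w ∧ supp L w ≤ R * ‖w‖ := by
  obtain ⟨ε, hε, hb⟩ := hL.exists_ball
  obtain ⟨R, hR⟩ := hL.compact.isBounded.exists_norm_le
  have hR0 : 0 ≤ R := (norm_nonneg _).trans (hR 0 (hb (Metric.mem_closedBall_self hε.le)))
  refine ⟨ε, R * Fintype.card ι, hε, by positivity, fun w => ⟨?_, supp_upper hL.compact hR0 hR w⟩⟩
  have := supp_lower hL.compact hε.le hb w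
  simpa using this

end body

lemma norm_elim_left [Nonempty ι₁] (w₁ : ι₁ → ℝ) (w₂ : ι₂ → ℝ) :
    ‖w₁‖ ≤ ‖(Sum.elim w₁ w₂ : ι₁ ⊕ ι₂ → ℝ)‖ := by
  rw [pi_norm_le_iff_of_nonneg (norm_nonneg _)]
  intro i
  exact norm_le_pi_norm (Sum.elim w₁ w₂ : ι₁ ⊕ ι₂ → ℝ) (Sum.inl i)

lemma norm_elim_right [Nonempty ι₂] (w₁ : ι₁ → ℝ) (w₂ : ι₂ → ℝ) :
    ‖w₂‖ ≤ ‖(Sum.elim w₁ w₂ : ι₁ ⊕ ι₂ → ℝ)‖ := by
  rw [pi_norm_le_iff_of_nonneg (norm_nonneg _)]
  intro i
  exact norm_le_pi_norm (Sum.elim w₁ w₂ : ι₁ ⊕ ι₂ → ℝ) (Sum.inr i)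

lemma norm_elim_le (w₁ : ι₁ → ℝ) (w₂ : ι₂ → ℝ) :
    ‖(Sum.elim w₁ w₂ : ι₁ ⊕ ι₂ → ℝ)‖ ≤ max ‖w₁‖ ‖w₂‖ := by
  rw [pi_norm_le_iff_of_nonneg (by positivity)]
  rintro (i | i)
  · simp only [Sum.elim_inl]
    exact (norm_le_pi_norm w₁ i).trans (le_max_left _ _)
  · simp only [Sum.elim_inr]
    exact (norm_le_pi_norm w₂ i).trans (le_max_right _ _)

variable [Nonempty ι₁] [Nonempty ι₂]

variable {D : ℝ → ℝ → ℝ} {a b : ℝ → ℝ}

/-- Two-sided bounds along the combined directions. -/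
lemma Lam_bound (hD : IsAbsNorm D) (hN : IsNode D a b) {L : Set (ι₁ ⊕ ι₂ → ℝ)} (hL : IsSymBody L)
    {c₁ C₁ c₂ C₂ : ℝ} (hc₁ : 0 < c₁) (hc₂ : 0 < c₂) :
    ∃ K : ℝ, ∀ (u₁ : ι₁ → ℝ) (u₂ : ι₂ → ℝ) (v : ℝ), c₁ ≤ ‖u₁‖ → ‖u₁‖ ≤ C₁ → c₂ ≤ ‖u₂‖ → ‖u₂‖ ≤ C₂ →
      |Lam L a b ((u₁, u₂), v)| ≤ K := by
  obtain ⟨c, A, hc, hA, hbd⟩ := node_bounds hD hN
  obtain ⟨ε, R, hε, hR, hsb⟩ := hL.supp_bounds
  set lo := ε * (c * min c₁ c₂) with hlo
  have hlo0 : 0 < lo := by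
    have : 0 < min c₁ c₂ := lt_min hc₁ hc₂
    positivity
  set hi := R * (A * max |C₁| |C₂|) with hhi
  refine ⟨max |Real.log lo| |Real.log (max hi lo)|, fun u₁ u₂ v h1 h2 h3 h4 => ?_⟩
  obtain ⟨ha, hb, hm⟩ := hbd v
  have ha0 := hN.a_nonneg v
  have hb0 := hN.b_nonneg v
  set w : ι₁ ⊕ ι₂ → ℝ := gam a b ((u₁, u₂), v) with hw
  have hw1 : a v * ‖u₁‖ ≤ ‖w‖ := by
    have := norm_elim_left (a v • u₁) (b v • u₂)
    rwa [norm_smul, Real.norm_eq_abs, abs_of_nonneg ha0] at this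
  have hw2 : b v * ‖u₂‖ ≤ ‖w‖ := by
    have := norm_elim_right (a v • u₁) (b v • u₂)
    rwa [norm_smul, Real.norm_eq_abs, abs_of_nonneg hb0] at this
  have hlow : c * min c₁ c₂ ≤ ‖w‖ := by
    have hmin : 0 ≤ min c₁ c₂ := (lt_min hc₁ hc₂).le
    rcases le_max_iff.1 hm with h | h
    · calc c * min c₁ c₂ ≤ a v * min c₁ c₂ := mul_le_mul_of_nonneg_right h hmin
        _ ≤ a v * ‖u₁‖ := mul_le_mul_of_nonneg_left ((min_le_left _ _).trans h1) ha0
        _ ≤ _ := hw1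
    · calc c * min c₁ c₂ ≤ b v * min c₁ c₂ := mul_le_mul_of_nonneg_right h hmin
        _ ≤ b v * ‖u₂‖ := mul_le_mul_of_nonneg_left ((min_le_right _ _).trans h3) hb0
        _ ≤ _ := hw2
  have hup : ‖w‖ ≤ A * max |C₁| |C₂| := by
    refine (norm_elim_le (a v • u₁) (b v • u₂)).trans ?_
    rw [norm_smul, norm_smul, Real.norm_eq_abs, Real.norm_eq_abs, abs_of_nonneg ha0, abs_of_nonneg hb0]
    apply max_le
    · exact mul_le_mul ha (h2.trans ((le_abs_self _).trans (le_max_left _ _))) (norm_nonneg _) hA.le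
    · exact mul_le_mul hb (h4.trans ((le_abs_self _).trans (le_max_right _ _))) (norm_nonneg _) hA.le
  obtain ⟨s1, s2⟩ := hsb w
  have t1 : lo ≤ supp L w := (mul_le_mul_of_nonneg_left hlow hε.le).trans s1
  have t2 : supp L w ≤ max hi lo :=
    (s2.trans (mul_le_mul_of_nonneg_left hup hR)).trans (le_max_left _ _)
  exact abs_log_le_of_bounds hlo0 t1 t2

/-- The planar image has positive support numbers. -/
lemma planar_pos {L : Set (ι₁ ⊕ ι₂ → ℝ)} (hL : IsSymBody L) {u₁ : ι₁ → ℝ} {u₂ : ι₂ → ℝ}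
    (h1 : u₁ ≠ 0) (h2 : u₂ ≠ 0) : ∀ u : ℝ × ℝ, u ≠ 0 → 0 < sup2 (planar L u₁ u₂) u := by
  rintro ⟨x, y⟩ hu
  obtain ⟨ε, R, hε, hR, hsb⟩ := hL.supp_bounds
  rw [sup2_planar]
  refine lt_of_lt_of_le ?_ (hsb _).1
  apply mul_pos hε
  rw [norm_pos_iff]
  intro h0
  apply hu
  have e1 : x • u₁ = 0 := by
    ext i
    have := congrFun h0 (Sum.inl i)
    simpa using this
  have e2 : y • u₂ = 0 := by
    ext i
    have := congrFun h0 (Sum.inr i)
    simpa using this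
  have e3 : x = 0 := (smul_eq_zero.1 e1).resolve_right h1
  have e4 : y = 0 := (smul_eq_zero.1 e2).resolve_right h2
  rw [e3, e4]
  rfl

/-- The logarithm of the geometric mean along a node. -/
lemma log_Mh_planar {L : Set (ι₁ ⊕ ι₂ → ℝ)} (hL : IsSymBody L) (hD : IsAbsNorm D) (hN : IsNode D a b)
    {u₁ : ι₁ → ℝ} {u₂ : ι₂ → ℝ} (h1 : u₁ ≠ 0) (h2 : u₂ ≠ 0) (v : ℝ) :
    Real.log (Mh (planar L u₁ u₂) (a v) (b v))
      = (Lam L a b ((u₁, u₂), v) + Lam L a b ((u₁, - u₂), v)) / 2 := by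
  have hne : ((a v, b v) : ℝ × ℝ) ≠ 0 := by
    intro h0
    have e1 : a v = 0 := congrArg Prod.fst h0
    have e2 : b v = 0 := congrArg Prod.snd h0
    have := hN.eval v
    rw [e1, e2] at this
    have h3 := hD.n_pos v
    simp only [zero_mul, add_zero] at this
    linarith
  have hne' : ((a v, - b v) : ℝ × ℝ) ≠ 0 := by
    intro h0
    apply hne
    have e1 : a v = 0 := congrArg Prod.fst h0
    have e2 : - b v = 0 := congrArg Prod.snd h0
    ext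
    · simpa using e1
    · simpa using e2
  have p1 := planar_pos hL h1 h2 _ hne
  have p2 := planar_pos hL h1 h2 _ hne'
  have e1 : sup2 (planar L u₁ u₂) (a v, b v) = supp L (gam a b ((u₁, u₂), v)) := sup2_planar _ _ _ _ _
  have e2 : sup2 (planar L u₁ u₂) (a v, - b v) = supp L (gam a b ((u₁, - u₂), v)) := by
    rw [sup2_planar]
    simp only [gam, neg_smul, smul_neg]
  rw [Mh, Real.log_sqrt (mul_pos p1 p2).le, Real.log_mul p1.ne' p2.ne', e1, e2]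
  rfl

end Vale.Agent.Lib.P227G
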