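import Mathlib
import Vale.Agent.Lib.P227G.Recursion

/-!
# The recursion: assembling the fibers
-/

open MeasureTheory Set Filter Topology
open scoped ENNReal

namespace Vale.Agent.Lib.P227G

variable {ι₁ ι₂ : Type*} [Fintype ι₁] [Fintype ι₂] [Nonempty ι₁] [Nonempty ι₂]
variable {D : ℝ → ℝ → ℝ} {a b : ℝ → ℝ}

/-- The inner integral in the slope variable. -/
noncomputable def Iint (L : Set (ι₁ ⊕ ι₂ → ℝ)) (a b : ℝ → ℝ) (m : Measure ℝ) (u₁ : ι₁ → ℝ)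
    (u₂ : ι₂ → ℝ) : ℝ := ∫ v, Lam L a b ((u₁, u₂), v) ∂m

omit [Nonempty ι₁] [Nonempty ι₂] in
lemma Iint_measurable {L : Set (ι₁ ⊕ ι₂ → ℝ)} (hL : IsCompact L) (ha : Measurable a)
    (hb : Measurable b) (m : Measure ℝ) [SFinite m] :
    Measurable fun z : (ι₁ → ℝ) × (ι₂ → ℝ) => Iint L a b m z.1 z.2 := by
  have h := (measurable_Lam hL ha hb).stronglyMeasurable
  exact h.integral_prod_right'.measurable

omit [Nonempty ι₁] [Nonempty ι₂] in
lemma Iint_measurable_right {L : Set (ι₁ ⊕ ι₂ → ℝ)} (hL : IsCompact L) (ha : Measurable a)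
    (hb : Measurable b) (m : Measure ℝ) [SFinite m] (u₁ : ι₁ → ℝ) :
    Measurable (Iint L a b m u₁) := by
  have h : Measurable fun v : (ι₂ → ℝ) × ℝ => Lam L a b ((u₁, v.1), v.2) :=
    (measurable_Lam hL ha hb).comp (f := fun v : (ι₂ → ℝ) × ℝ => ((u₁, v.1), v.2))
      ((measurable_const.prodMk measurable_fst).prodMk measurable_snd)
  exact h.stronglyMeasurable.integral_prod_right'.measurable

omit [Nonempty ι₁] [Nonempty ι₂] in
lemma Lam_integrable {L : Set (ι₁ ⊕ ι₂ → ℝ)} (hL : IsCompact L) (ha : Measurable a)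
    (hb : Measurable b) (m : Measure ℝ) [IsProbabilityMeasure m] {u₁ : ι₁ → ℝ} {u₂ : ι₂ → ℝ} {K : ℝ}
    (hK : ∀ v, |Lam L a b ((u₁, u₂), v)| ≤ K) : Integrable (fun v => Lam L a b ((u₁, u₂), v)) m := by
  have hm : Measurable fun v => Lam L a b ((u₁, u₂), v) :=
    (measurable_Lam hL ha hb).comp (f := fun v : ℝ => ((u₁, u₂), v))
      (measurable_const.prodMk measurable_id)
  exact Integrable.of_bound hm.aestronglyMeasurable K
    (Eventually.of_forall fun v => by simpa using hK v)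

omit [Nonempty ι₁] [Nonempty ι₂] in
lemma Iint_bound {L : Set (ι₁ ⊕ ι₂ → ℝ)} (m : Measure ℝ) [IsProbabilityMeasure m]
    {u₁ : ι₁ → ℝ} {u₂ : ι₂ → ℝ} {K : ℝ}
    (hK : ∀ v, |Lam L a b ((u₁, u₂), v)| ≤ K) : |Iint L a b m u₁ u₂| ≤ K := by
  have := norm_integral_le_of_norm_le_const (μ := m) (f := fun v => Lam L a b ((u₁, u₂), v)) (C := K)
    (Eventually.of_forall fun v => by simpa using hK v)
  simpa [Iint] using this

/-- The constant of the planar step. -/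
noncomputable def cPlanar (p q : ℕ) (Z : ℝ) : ℝ :=
  Real.log (1 / 2 ^ q * (2 ^ (p + q) * ((p : ℝ) * q / (p + q)) * Z))

lemma exp_cPlanar {p q : ℕ} (hp : 1 ≤ p) (hq : 1 ≤ q) {Z : ℝ} (hZ : 0 < Z) (X : ℝ) :
    1 / 2 ^ q * (2 ^ (p + q) * ((p : ℝ) * q / (p + q)) * (Z * Real.exp X))
      = Real.exp (cPlanar p q Z + X) := by
  have hC : 0 < 1 / (2:ℝ) ^ q * (2 ^ (p + q) * ((p : ℝ) * q / (p + q)) * Z) := by
    have h3 : (0:ℝ) < p := by exact_mod_cast hp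
    have h4 : (0:ℝ) < q := by exact_mod_cast hq
    positivity
  rw [Real.exp_add, cPlanar, Real.exp_log hC]
  ring

lemma final_arith {p q : ℕ} (hp : 1 ≤ p) (hq : 1 ≤ q) {Z V₁ V₂ : ℝ} (hZ : 0 < Z) (hV₂ : 0 < V₂) (X : ℝ) :
    V₁ * Real.exp (Real.log (1 / 2 ^ p * V₂) + cPlanar p q Z + X)
      = V₁ * V₂ * (((p : ℝ) * q / (p + q)) * Z) * Real.exp X := by
  have h3 : (0:ℝ) < p := by exact_mod_cast hp
  have h4 : (0:ℝ) < q := by exact_mod_cast hq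
  have hpos1 : 0 < 1 / (2:ℝ) ^ p * V₂ := by positivity
  have hpos2 : 0 < 1 / (2:ℝ) ^ q * (2 ^ (p + q) * ((p : ℝ) * q / (p + q)) * Z) := by positivity
  rw [Real.exp_add, Real.exp_add, cPlanar, Real.exp_log hpos1, Real.exp_log hpos2, pow_add]
  field_simp

/-- Measurability of the density of the node measure. -/
lemma nodeF_measurable (hN : IsNode D a b) (p q : ℕ) : Measurable (nodeF D p q) := by
  have hn : Measurable fun v => D 1 (Real.exp v) := by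
    have : (fun v => D 1 (Real.exp v)) = fun v => a v + b v * Real.exp v := by
      ext v
      exact (hN.eval v).symm
    rw [this]
    exact hN.a_meas.add (hN.b_meas.mul Real.measurable_exp)
  unfold nodeF
  exact (Real.measurable_exp.comp (by fun_prop)).div (hn.pow_const _)

/-- The planar step. -/
lemma planar_step (hD : IsAbsNorm D) (hN : IsNode D a b) {Z : ℝ} (hZ : 0 < Z)
    (hZeq : ∫⁻ v, ENNReal.ofReal (nodeF D (Fintype.card ι₁) (Fintype.card ι₂) v) = ENNReal.ofReal Z)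
    {L : Set (ι₁ ⊕ ι₂ → ℝ)} (hL : IsSymBody L) {u₁ : ι₁ → ℝ} {u₂ : ι₂ → ℝ} (h1 : u₁ ≠ 0)
    (h2 : u₂ ≠ 0) {K : ℝ} (hK : ∀ v, |Lam L a b ((u₁, u₂), v)| ≤ K)
    (hK' : ∀ v, |Lam L a b ((u₁, - u₂), v)| ≤ K) :
    ∫⁻ ρ, ENNReal.ofReal (wid (slice (Zp L u₁) ρ) u₂ ^ Fintype.card ι₂)
      ≤ ENNReal.ofReal (Real.exp (cPlanar (Fintype.card ι₁) (Fintype.card ι₂) Z
        + ((Fintype.card ι₁ + Fintype.card ι₂ : ℕ) : ℝ) *
          ((Iint L a b (wmeas (nodeF D (Fintype.card ι₁) (Fintype.card ι₂)) Z) u₁ u₂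
            + Iint L a b (wmeas (nodeF D (Fintype.card ι₁) (Fintype.card ι₂)) Z) u₁ (- u₂)) / 2))) := by
  have hp1 : 1 ≤ Fintype.card ι₁ := Fintype.card_pos
  have hq1 : 1 ≤ Fintype.card ι₂ := Fintype.card_pos
  set m := wmeas (nodeF D (Fintype.card ι₁) (Fintype.card ι₂)) Z with hm
  haveI : IsProbabilityMeasure m := wmeas_isProb hZ (nodeF_measurable hN _ _) hZeq
  have hbound := volume_Zset_bound (κ := ι₁) (κ' := ι₂) hD hN (planar_compact hL.compact u₁ u₂)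
    (planar_convex hL.convex u₁ u₂) (fun x hx => planar_symm hL.symm u₁ u₂ hx)
    (planar_pos hL h1 h2) hZ hZeq
  have hint : ∫ v, Real.log (Mh (planar L u₁ u₂) (a v) (b v)) ∂m
      = (Iint L a b m u₁ u₂ + Iint L a b m u₁ (- u₂)) / 2 := by
    simp_rw [log_Mh_planar hL hD hN h1 h2]
    rw [integral_div, integral_add (Lam_integrable hL.compact hN.a_meas hN.b_meas m hK)
      (Lam_integrable hL.compact hN.a_meas hN.b_meas m hK')]
    rfl
  rw [← hm, hint] at hbound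
  refine (lintegral_wid_Zp_le hL.compact hL.convex u₁ u₂).trans ?_
  refine (mul_le_mul' le_rfl hbound).trans (le_of_eq ?_)
  rw [← ENNReal.ofReal_mul (by positivity), exp_cPlanar hp1 hq1 hZ]

/-- The integral of a symmetrized function. -/
lemma integral_symm_gen {κ : Type*} [Fintype κ] {f : (κ → ℝ) → ℝ} (hm : Measurable f)
    {ν : Measure (κ → ℝ)} (hneg : Measure.map (Neg.neg : (κ → ℝ) → (κ → ℝ)) ν = ν)
    (hi : Integrable f ν) :
    ∫ u, (f u + f (- u)) / 2 ∂ν = ∫ u, f u ∂ν := by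
  have hnegm : Measurable (Neg.neg : (κ → ℝ) → (κ → ℝ)) := measurable_neg
  have hi' : Integrable (fun u => f (- u)) ν := by
    have : Integrable f (Measure.map Neg.neg ν) := by
      rw [hneg]
      exact hi
    exact this.comp_measurable hnegm
  have e : ∫ u, f (- u) ∂ν = ∫ u, f u ∂ν := by
    have := integral_map (μ := ν) hnegm.aemeasurable hm.aestronglyMeasurable
    rw [hneg] at this
    exact this.symm
  rw [integral_div, integral_add hi hi', e]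
  ring

/-- The second fiber step. -/
lemma second_fiber (hD : IsAbsNorm D) (hN : IsNode D a b) {Z : ℝ} (hZ : 0 < Z)
    (hZeq : ∫⁻ v, ENNReal.ofReal (nodeF D (Fintype.card ι₁) (Fintype.card ι₂) v) = ENNReal.ofReal Z)
    {V₂ : ℝ} (hV₂ : 0 ≤ V₂) {ν₂ : Measure (ι₂ → ℝ)} [IsProbabilityMeasure ν₂]
    {c₂ C₂ : ℝ} (hc₂ : 0 < c₂) (hsh₂ : ∀ᵐ u ∂ν₂, c₂ ≤ ‖u‖ ∧ ‖u‖ ≤ C₂) (hLM₂ : HasLM V₂ ν₂)
    (hneg : Measure.map (Neg.neg : (ι₂ → ℝ) → (ι₂ → ℝ)) ν₂ = ν₂)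
    {L : Set (ι₁ ⊕ ι₂ → ℝ)} (hL : IsSymBody L) {u₁ : ι₁ → ℝ} {K : ℝ} (h1 : u₁ ≠ 0)
    (hK : ∀ (u₂ : ι₂ → ℝ) (v : ℝ), c₂ ≤ ‖u₂‖ → ‖u₂‖ ≤ C₂ → |Lam L a b ((u₁, u₂), v)| ≤ K) :
    volume (Zp L u₁) ≤ ENNReal.ofReal (V₂ * Real.exp (cPlanar (Fintype.card ι₁) (Fintype.card ι₂) Z
      + ((Fintype.card ι₁ + Fintype.card ι₂ : ℕ) : ℝ) *
        ∫ u₂, Iint L a b (wmeas (nodeF D (Fintype.card ι₁) (Fintype.card ι₂)) Z) u₁ u₂ ∂ν₂)) := by
  set m := wmeas (nodeF D (Fintype.card ι₁) (Fintype.card ι₂)) Z with hm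
  haveI : IsProbabilityMeasure m := wmeas_isProb hZ (nodeF_measurable hN _ _) hZeq
  have hm1 : Measurable (Iint L a b m u₁) := Iint_measurable_right hL.compact hN.a_meas hN.b_meas m u₁
  have hm2 : Measurable fun u₂ => Iint L a b m u₁ (- u₂) := hm1.comp measurable_neg
  have hi1 : Integrable (Iint L a b m u₁) ν₂ := by
    refine Integrable.of_bound hm1.aestronglyMeasurable K ?_
    filter_upwards [hsh₂] with u₂ hu
    rw [Real.norm_eq_abs]
    exact Iint_bound m fun v => hK u₂ v hu.1 hu.2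
  have hi2 : Integrable (fun u₂ => Iint L a b m u₁ (- u₂)) ν₂ := by
    refine Integrable.of_bound hm2.aestronglyMeasurable K ?_
    filter_upwards [hsh₂] with u₂ hu
    rw [Real.norm_eq_abs]
    exact Iint_bound m fun v => hK (- u₂) v (by rw [norm_neg]; exact hu.1) (by rw [norm_neg]; exact hu.2)
  set N : ℝ := ((Fintype.card ι₁ + Fintype.card ι₂ : ℕ) : ℝ) with hNd
  set c0 : ℝ := cPlanar (Fintype.card ι₁) (Fintype.card ι₂) Z with hc0
  set B : (ι₂ → ℝ) → ℝ := fun u₂ => c0 + N * ((Iint L a b m u₁ u₂ + Iint L a b m u₁ (- u₂)) / 2)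
    with hB
  have hBm : Measurable B := (((hm1.add hm2).div_const 2).const_mul N).const_add _
  have hBi : Integrable B ν₂ := (integrable_const _).add (((hi1.add hi2).div_const 2).const_mul N)
  have hfib := fiber_bound hV₂ ⟨c₂, C₂, hc₂, hsh₂⟩ hLM₂ (Zp_compact hL.compact u₁)
    (Zp_convex hL.convex u₁) hBm hBi (by
      filter_upwards [hsh₂] with u₂ hu
      have hne2 : u₂ ≠ 0 := by
        intro h0
        rw [h0, norm_zero] at hu
        linarith [hu.1]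
      exact planar_step hD hN hZ hZeq hL h1 hne2 (fun v => hK u₂ v hu.1 hu.2)
        (fun v => hK (- u₂) v (by rw [norm_neg]; exact hu.1) (by rw [norm_neg]; exact hu.2)))
  have hint : ∫ u₂, B u₂ ∂ν₂ = c0 + N * ∫ u₂, Iint L a b m u₁ u₂ ∂ν₂ := by
    have hB2 : Integrable (fun u₂ => N * ((Iint L a b m u₁ u₂ + Iint L a b m u₁ (- u₂)) / 2)) ν₂ :=
      ((hi1.add hi2).div_const 2).const_mul N
    simp only [hB]
    rw [integral_add (integrable_const _) hB2, integral_const_mul, integral_symm_gen hm1 hneg hi1]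
    simp
  rwa [hint] at hfib

/-- The recursion theorem. -/
theorem lm_recursion (hD : IsAbsNorm D) (hN : IsNode D a b) {Z : ℝ} (hZ : 0 < Z)
    (hZeq : ∫⁻ v, ENNReal.ofReal (nodeF D (Fintype.card ι₁) (Fintype.card ι₂) v) = ENNReal.ofReal Z)
    {V₁ V₂ : ℝ} (hV₁ : 0 ≤ V₁) (hV₂ : 0 < V₂) {ν₁ : Measure (ι₁ → ℝ)} {ν₂ : Measure (ι₂ → ℝ)}
    [IsProbabilityMeasure ν₁] [IsProbabilityMeasure ν₂]
    (hsh₁ : ∃ c C : ℝ, 0 < c ∧ ∀ᵐ u ∂ν₁, c ≤ ‖u‖ ∧ ‖u‖ ≤ C)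
    (hsh₂ : ∃ c C : ℝ, 0 < c ∧ ∀ᵐ u ∂ν₂, c ≤ ‖u‖ ∧ ‖u‖ ≤ C)
    (hLM₁ : HasLM V₁ ν₁) (hLM₂ : HasLM V₂ ν₂)
    (hneg : Measure.map (Neg.neg : (ι₂ → ℝ) → (ι₂ → ℝ)) ν₂ = ν₂)
    {L : Set (ι₁ ⊕ ι₂ → ℝ)} (hL : IsSymBody L) :
    volume L ≤ ENNReal.ofReal (V₁ * V₂ *
      (((Fintype.card ι₁ : ℝ) * Fintype.card ι₂ / (Fintype.card ι₁ + Fintype.card ι₂)) * Z) *
      Real.exp (((Fintype.card ι₁ + Fintype.card ι₂ : ℕ) : ℝ) *
        ∫ u₁, ∫ u₂, Iint L a b (wmeas (nodeF D (Fintype.card ι₁) (Fintype.card ι₂)) Z) u₁ u₂ ∂ν₂ ∂ν₁)) := by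
  have hp1 : 1 ≤ Fintype.card ι₁ := Fintype.card_pos
  have hq1 : 1 ≤ Fintype.card ι₂ := Fintype.card_pos
  set m := wmeas (nodeF D (Fintype.card ι₁) (Fintype.card ι₂)) Z with hm
  haveI : IsProbabilityMeasure m := wmeas_isProb hZ (nodeF_measurable hN _ _) hZeq
  obtain ⟨c₁, C₁, hc₁, hs₁⟩ := hsh₁
  obtain ⟨c₂, C₂, hc₂, hs₂⟩ := hsh₂
  obtain ⟨K, hK⟩ := Lam_bound (C₁ := C₁) (C₂ := C₂) hD hN hL hc₁ hc₂
  have hIm := Iint_measurable hL.compact hN.a_meas hN.b_meas m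
  have hJm : Measurable fun u₁ : ι₁ → ℝ => ∫ u₂, Iint L a b m u₁ u₂ ∂ν₂ :=
    (hIm.stronglyMeasurable.integral_prod_right' (ν := ν₂)).measurable
  have hJb : ∀ u₁ : ι₁ → ℝ, c₁ ≤ ‖u₁‖ → ‖u₁‖ ≤ C₁ → |∫ u₂, Iint L a b m u₁ u₂ ∂ν₂| ≤ K := by
    intro u₁ h1 h2
    have := norm_integral_le_of_norm_le_const (μ := ν₂) (f := fun u₂ => Iint L a b m u₁ u₂) (C := K) (by
      filter_upwards [hs₂] with u₂ hu
      rw [Real.norm_eq_abs]
      exact Iint_bound m fun v => hK u₁ u₂ v h1 h2 hu.1 hu.2)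
    simpa using this
  have hJi : Integrable (fun u₁ : ι₁ → ℝ => ∫ u₂, Iint L a b m u₁ u₂ ∂ν₂) ν₁ := by
    refine Integrable.of_bound hJm.aestronglyMeasurable K ?_
    filter_upwards [hs₁] with u₁ hu
    rw [Real.norm_eq_abs]
    exact hJb u₁ hu.1 hu.2
  set N : ℝ := ((Fintype.card ι₁ + Fintype.card ι₂ : ℕ) : ℝ) with hNd
  set c0 : ℝ := Real.log (1 / 2 ^ Fintype.card ι₁ * V₂)
    + cPlanar (Fintype.card ι₁) (Fintype.card ι₂) Z with hc0
  set B : (ι₁ → ℝ) → ℝ := fun u₁ => c0 + N * ∫ u₂, Iint L a b m u₁ u₂ ∂ν₂ with hB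
  have hBm : Measurable B := (hJm.const_mul N).const_add _
  have hBi : Integrable B ν₁ := (integrable_const _).add (hJi.const_mul N)
  have hfib := fiber_bound hV₁ ⟨c₁, C₁, hc₁, hs₁⟩ hLM₁ (swapB_compact hL.compact)
    (swapB_convex hL.convex) hBm hBi (by
      filter_upwards [hs₁] with u₁ hu
      have hne1 : u₁ ≠ 0 := by
        intro h0
        rw [h0, norm_zero] at hu
        linarith [hu.1]
      rw [lintegral_wid_swapB hL.compact hL.convex u₁]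
      have h2 := second_fiber hD hN hZ hZeq hV₂.le hc₂ hs₂ hLM₂ hneg hL hne1
        (fun u₂ v h3 h4 => hK u₁ u₂ v hu.1 hu.2 h3 h4)
      refine (mul_le_mul' le_rfl h2).trans (le_of_eq ?_)
      rw [← ENNReal.ofReal_mul (by positivity)]
      congr 1
      simp only [hB, hc0]
      have hpos : 0 < 1 / (2:ℝ) ^ Fintype.card ι₁ * V₂ := by positivity
      rw [add_assoc, Real.exp_add (Real.log (1 / 2 ^ Fintype.card ι₁ * V₂)), Real.exp_log hpos]
      ring)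
  rw [volume_swapB hL.compact] at hfib
  refine hfib.trans (le_of_eq ?_)
  congr 1
  have hint : ∫ u₁, B u₁ ∂ν₁ = c0 + N * ∫ u₁, ∫ u₂, Iint L a b m u₁ u₂ ∂ν₂ ∂ν₁ := by
    simp only [hB]
    rw [integral_add (integrable_const _) (hJi.const_mul N), integral_const_mul]
    simp
  rw [hint, hc0]
  exact final_arith hp1 hq1 hZ hV₂ _

end Vale.Agent.Lib.P227G
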